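import Vale.Agent.P167.H166N.Half

/-!
# P167, block VOUT, V4: lower bound of the exterior event
-/

namespace Vale.Agent.P167.H166N

open Vale.Agent.P145.FB Vale.Agent.P167 Vale.Agent.P167.H632 Vale.Agent.P167.H662
  Vale.Agent.P167.H825
open Vale.Agent.P167.H871 (Dep Fair fair_mu)
open Vale.Agent.P167.E6 (IsPolygon Encloses dir)
open MeasureTheory Relation Filter

theorem hs_sq {r : Fin 4} {b u v : ℤ × ℤ} (hu : u ∈ Hs r b) (hv : v ∈ Hs r b)
    (h1 : v.1 = u.1 + 1 ∨ v.1 = u.1 - 1) (h2 : v.2 = u.2 + 1 ∨ v.2 = u.2 - 1) :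
    (min u.1 v.1, min u.2 v.2) ∈ Qs r b := by
  fin_cases r <;> simp only [Hs, Qs, Set.mem_ofPred_eq] at * <;> omega

/-- the half plane arm -/
def HArm (c : Bool) (r : Fin 4) (b : ℤ × ℤ) (ρ : ℤ) : Set Cfg :=
  {ω | ∃ t, nm (t - b) = ρ ∧ PConn (cs c ω) (Hs r b ∩ bl b ρ) b t}

theorem dep_HArm (c : Bool) (r : Fin 4) (b : ℤ × ℤ) (ρ : ℤ) : Dep (bq b ρ) (HArm c r b ρ) := by
  rintro o o' ho ⟨t, h1, h2⟩
  exact ⟨t, h1, pconn_bl Set.inter_subset_right (fun v hv h => by rw [← ho v hv]; exact h) h2⟩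

theorem inc_HArm (c : Bool) (r : Fin 4) (b : ℤ × ℤ) (ρ : ℤ) : IncC c (HArm c r b ρ) := by
  rintro o o' ho ⟨t, h1, h2⟩
  exact ⟨t, h1, pconn_bl Set.inter_subset_right (fun v _ h => ho v h) h2⟩

theorem flat_sub_HArm (h : T1F) {r : Fin 4} {b : ℤ × ℤ} {R ρ : ℤ} (hR : 1 ≤ R) (hρ : 0 ≤ ρ)
    (hρR : ρ ≤ R) : FlatD r b R ⊆ HArm (col b) r b ρ := by
  intro ω hω
  obtain ⟨t, h1, h2⟩ := h r b R hR ω hω
  obtain ⟨z, k1, k2, -⟩ := first_exit h2 (b := b) (R := ρ) (by rw [sub_self]; simpa [nm] using hρ)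
    (by omega)
  exact ⟨z, k1, k2⟩

theorem NX_sub_NCc (c : Bool) (b : ℤ × ℤ) (r R : ℤ) : NX c b r R ⊆ NCc c b r R := by
  rintro ω hω ⟨y, y', h1, h2, h3, h4⟩
  refine hω y y' (by rw [h1, pr_not]) h2 h3 ?_
  rw [cs_compl]
  refine h4.mono subset_rfl ?_
  intro w hw
  exact ⟨trivial, hw⟩

theorem pr_col (b : ℤ × ℤ) : (b.1 + b.2) % 2 = pr (col b) := by
  unfold col pr
  by_cases h : Even (b.1 + b.2)
  · simp only [h, decide_true, if_true]
    rwa [Int.even_iff] at h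
  · simp only [h, decide_false]
    rw [Int.not_even_iff] at h
    simpa using h

/-- the deterministic part: the path -/
theorem out_path {D : Finset (ℤ × ℤ)} {r0 : Fin 4} {b : ℤ × ℤ} {r R r' R2 : ℤ} {i0 m : ℕ}
    {z : ℕ → ℤ × ℤ} {ω : Cfg} {K : ℕ} (hr : 1 ≤ r) (hK : 3 ≤ K) (hR : R = K * r)
    (hr' : r' = (K + 4) * r)
    (hD : ∀ v : ℤ × ℤ, nm (v - b) ≤ K * r' → v ∈ Qs r0 b → v ∉ D)
    (hz0 : ∀ i ≤ i0, z i = b + (((K : ℤ) + 2 + i) * r) • dir (r0 - 1)) (him : i0 ≤ m)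
    (hi0 : K * (K + 4) ≤ i0)
    (hz1 : ∀ i < m, nm (z (i + 1) - z i) ≤ r)
    (hz2 : ∀ i ≤ m, ∀ v : ℤ × ℤ, nm (v - z i) ≤ ((K : ℤ) + 1) * r → v ∉ D)
    (hz3 : R2 + r < nm (z m - b))
    (hA : ω ∈ HArm (col b) r0 b (K * r')) (hN : ∀ i ≤ m, ω ∈ nd (col b) (z i) r R)
    (hN1 : ω ∈ NX (col b) b (2 * r' + 1) (K * r')) :
    ∃ t, R2 < nm (t - b) ∧ PConn (cs (col b) ω ∩ {v | v ∉ D}) Set.univ b t := by
  have hK' : (3 : ℤ) ≤ K := by exact_mod_cast hK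
  have hr0 : 0 ≤ r := by omega
  have hR1 : 2 * r + 1 ≤ R := by rw [hR]; nlinarith
  have hr1 : r ≤ r' := by rw [hr']; nlinarith
  have hKr : 2 * r' + 1 ≤ K * r' := by nlinarith
  have hdirn : nm (dir (r0 - 1)) = 1 := by fin_cases r0 <;> rfl
  have hnz : ∀ i ≤ i0, nm (z i - b) = ((K : ℤ) + 2 + i) * r := by
    intro i hi
    rw [hz0 i hi, add_sub_cancel_left]
    have h0 : 0 ≤ ((K : ℤ) + 2 + i) * r := by positivity
    generalize ((K : ℤ) + 2 + i) * r = s at h0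
    fin_cases r0 <;> simp [nm, dir, abs_of_nonneg h0, h0]
  obtain ⟨y0, hy0⟩ := exists_hub (hN 0 (by omega))
  obtain ⟨yi, hyi⟩ := exists_hub (hN i0 him)
  obtain ⟨ym, hym⟩ := exists_hub (hN m le_rfl)
  -- the straight part of the tube
  have hball : ∀ i ≤ i0, bl (z i) R ⊆ Hs r0 b := by
    intro i hi w hw
    rw [mem_bl, hz0 i hi] at hw
    have hi' : (0 : ℤ) ≤ i := by positivity
    have h1 : R + 2 * r ≤ ((K : ℤ) + 2 + i) * r := by rw [hR]; nlinarith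
    generalize ((K : ℤ) + 2 + i) * r = s at h1 hw
    fin_cases r0 <;> simp [Hs, dir] at hw ⊢ <;> omega
  have c1 : PConn (cs (col b) ω) (Hs r0 b) y0 yi :=
    chain hr0 hR1 z i0 (fun i hi => hz1 i (by omega)) (fun i hi => hN i (by omega)) hball hy0 hyi
  have n0 : nm (y0 - b) ≤ ((K : ℤ) + 3) * r := by
    have h1 := nm_tri y0 (z 0) b
    have h2 := hnz 0 (by omega)
    have h3 := hy0.2.1
    push_cast at h2
    rw [h2] at h1
    nlinarith
  have ni : K * r' ≤ nm (yi - b) := by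
    have h1 := nm_tri (z i0) yi b
    have h2 := hnz i0 le_rfl
    have h3 := hyi.2.1
    rw [nm_comm] at h3
    rw [h2] at h1
    have h4 : ((K : ℤ) * (K + 4)) ≤ i0 := by exact_mod_cast hi0
    rw [hr']
    nlinarith
  obtain ⟨w, hw1, hw2, -⟩ := first_exit c1 (b := b) (R := K * r') (by
    refine n0.trans ?_
    rw [hr']; nlinarith) ni
  obtain ⟨t, ht1, ht2⟩ := hA
  obtain ⟨f, g, hfg⟩ := exists_fold r0 b
  have c2 : PConn (cs (col b) ω) (Hs r0 b ∩ bl b (K * r')) b y0 :=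
    hfg.glue (pr_or _) (by omega) hKr hN1 (pr_col b) hy0.1 ht2 hw2
      (by rw [sub_self]; simp [nm]; omega) (by
        refine lt_of_le_of_lt n0 ?_
        rw [hr']; nlinarith) ht1.ge hw1.ge
  have c3 : PConn (cs (col b) ω ∩ {v | v ∉ D}) Set.univ b y0 := by
    refine (pconn_congr (F' := cs (col b) ω ∩ {v | v ∉ D})
      (fun x y hxy hx hy => ⟨hxy.2.2, ?_⟩) c2).mono subset_rfl
      (Set.subset_univ _)
    exact hD _ (sq_mem_bl hx.2 hy.2) (hs_sq hx.1 hy.1 hxy.1 hxy.2.1)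
  -- the whole tube
  have c4 : PConn (cs (col b) ω) {w | ∃ i ≤ m, nm (w - z i) ≤ R} y0 ym :=
    chain hr0 hR1 z m hz1 hN (by intro i hi w hw; exact ⟨i, hi, hw⟩) hy0 hym
  have c5 : PConn (cs (col b) ω ∩ {v | v ∉ D}) Set.univ y0 ym := by
    refine (pconn_congr (F' := cs (col b) ω ∩ {v | v ∉ D})
      (fun x y hxy hx _ => ⟨hxy.2.2, ?_⟩) c4).mono subset_rfl
      (Set.subset_univ _)
    obtain ⟨i, hi, hxi⟩ := hx
    refine hz2 i hi _ ?_
    have h1 : nm ((min x.1 y.1, min x.2 y.2) - x) ≤ 1 := by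
      rw [nm_le]
      simp only [Prod.fst_sub, Prod.snd_sub]
      have := hxy.1; have := hxy.2.1
      omega
    have h2 := nm_tri (min x.1 y.1, min x.2 y.2) x (z i)
    have h3 : ((K : ℤ) + 1) * r = R + r := by rw [hR]; ring
    omega
  refine ⟨ym, ?_, c3.trans c5⟩
  have h1 := nm_tri (z m) ym b
  have h2 := hym.2.1
  rw [nm_comm] at h2
  omega

/-- the probabilistic part -/
theorem prob_ge {K : ℕ} {c0 : ℝ} (hc0 : 0 < c0) (hK : 3 ≤ K)
    (hge : ∀ (c : Bool) (Z : Finset (ℤ × ℤ)) (r : ℤ), 1 ≤ r →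
      c0 ^ Z.card ≤ μ.real (Nds c Z r (K * r))) (c : Bool) (r0 : Fin 4) (b : ℤ × ℤ) (ρ r r' r'' : ℤ)
    (hr : 1 ≤ r) (hr' : 1 ≤ r') (hr'' : 1 ≤ r'') (Z : Finset (ℤ × ℤ)) (n : ℕ) (hZ : Z.card ≤ n) :
    c0 ^ n * c0 * c0 * μ.real (HArm c r0 b ρ) ≤ μ.real (HArm c r0 b ρ ∩
      (Nds c Z r (K * r) ∩ (NX c b (2 * r' + 1) (K * r') ∩ NX c b (2 * r'' + 1) (K * r'')))) := by
  have hP := fair_mu.prob
  have hc1 : c0 ≤ 1 := by
    have h := hge true {(0, 0)} 1 le_rfl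
    rw [Finset.card_singleton, pow_one] at h
    exact h.trans measureReal_le_one
  have hK' : (3 : ℤ) ≤ K := by exact_mod_cast hK
  have h1 : ∀ s : ℤ, 1 ≤ s → c0 ≤ μ.real (NX c b (2 * s + 1) (K * s)) := by
    intro s hs
    have h := hge c {b} s hs
    rw [Finset.card_singleton, pow_one] at h
    exact h.trans (measureReal_mono fun ω hω => (hω b (Finset.mem_singleton_self b)).2)
  have h2 : c0 ^ n ≤ μ.real (Nds c Z r (K * r)) :=
    (pow_le_pow_of_le_one hc0.le hc1 hZ).trans (hge c Z r hr)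
  have hd : Dep (Z.biUnion fun b => bq b (K * r + r)) (Nds c Z r (K * r)) :=
    dep_nds (by omega) fun b hb => Finset.subset_biUnion_of_mem (fun b => bq b (K * r + r)) hb
  have d2 := (dep_NX c b (2 * r' + 1) (K * r')).inter' (dep_NX c b (2 * r'' + 1) (K * r''))
  have i2 := (inc_NX c b (2 * r' + 1) (K * r')).inter (inc_NX c b (2 * r'' + 1) (K * r''))
  have d3 := hd.inter' d2
  have i3 := (inc_nds c Z r (K * r)).inter i2
  have f1 := fkg_c (dep_NX c b (2 * r' + 1) (K * r')) (dep_NX c b (2 * r'' + 1) (K * r''))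
    (inc_NX c b (2 * r' + 1) (K * r')) (inc_NX c b (2 * r'' + 1) (K * r''))
  have f2 := fkg_c hd d2 (inc_nds c Z r (K * r)) i2
  have f3 := fkg_c (dep_HArm c r0 b ρ) d3 (inc_HArm c r0 b ρ) i3
  have g1 : c0 * c0 ≤ μ.real (NX c b (2 * r' + 1) (K * r') ∩ NX c b (2 * r'' + 1) (K * r'')) :=
    (mul_le_mul (h1 r' hr') (h1 r'' hr'') hc0.le measureReal_nonneg).trans f1
  have g2 := (mul_le_mul h2 g1 (by positivity) measureReal_nonneg).trans f2
  calc c0 ^ n * c0 * c0 * μ.real (HArm c r0 b ρ)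
      = μ.real (HArm c r0 b ρ) * (c0 ^ n * (c0 * c0)) := by ring
    _ ≤ _ := mul_le_mul_of_nonneg_left g2 measureReal_nonneg
    _ ≤ _ := f3

/-- **V4** -/
theorem v4 (hT : T1F) (hG : GEOX) : V4 := by
  intro l _ p S₀ hp hS Q hQ κ1 hκ1
  obtain ⟨K, c0, hK, hc0, hge⟩ := nds_ge
  obtain ⟨C, k, hk, hev1, hch⟩ := hG l p S₀ hp hS Q hQ
  have hK' : (3 : ℤ) ≤ K := by exact_mod_cast hK
  have hKr : (3 : ℝ) ≤ K := by exact_mod_cast hK
  obtain ⟨ε0, hε0, hch⟩ := hch K (K * (K + 4)) (K * (C + 1) + 1)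
  obtain ⟨A, hA⟩ : ∃ A : ℝ, A = K * (K + 4) := ⟨_, rfl⟩
  have hA0 : 0 < A := by rw [hA]; positivity
  obtain ⟨ε, hε1, hε2, hε3, hε4, hε5⟩ : ∃ ε : ℝ, 0 < ε ∧ ε < ε0 ∧ ε ≤ 1 ∧ A * ε ≤ k ∧
      A * ε ≤ κ1 := by
    refine ⟨min (ε0 / 2) (min 1 (min (k / A) (κ1 / A))), by positivity,
      lt_of_le_of_lt (min_le_left _ _) (by linarith), (min_le_right _ _).trans (min_le_left _ _),
      ?_, ?_⟩
    · have := ((min_le_right (ε0 / 2) _).trans ((min_le_right 1 _).trans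
        (min_le_left (k / A) (κ1 / A))))
      calc A * _ ≤ A * (k / A) := by gcongr
        _ = k := by field_simp
    · have := ((min_le_right (ε0 / 2) _).trans ((min_le_right 1 _).trans
        (min_le_right (k / A) (κ1 / A))))
      calc A * _ ≤ A * (κ1 / A) := by gcongr
        _ = κ1 := by field_simp
  obtain ⟨m, him, hch⟩ := hch ε hε1 hε2
  refine ⟨c0 ^ (m + 1) * c0 * c0, by positivity, fun n => 2 * ((C + 1) * n) + 1,
    fun n => K * ((C + 1) * n), ?_⟩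
  have hbig : ∀ᶠ n : ℕ in atTop, 1 ≤ ε * n ∧ 1 ≤ κ1 * n ∧ (2 : ℝ) ≤ n := by
    have t1 : Tendsto (fun n : ℕ => ε * (n : ℝ)) atTop atTop :=
      tendsto_natCast_atTop_atTop.const_mul_atTop hε1
    have t2 : Tendsto (fun n : ℕ => κ1 * (n : ℝ)) atTop atTop :=
      tendsto_natCast_atTop_atTop.const_mul_atTop hκ1
    exact (t1.eventually_ge_atTop 1).and ((t2.eventually_ge_atTop 1).and
      ((tendsto_natCast_atTop_atTop (R := ℝ)).eventually_ge_atTop 2))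
  filter_upwards [hev1, hch, hbig] with n h1 h2 h3
  obtain ⟨h11, h12⟩ := h1
  obtain ⟨z, hz0, hz1, hz2, hz3⟩ := h2
  obtain ⟨h31, h32, h33⟩ := h3
  have hn2 : (2 : ℤ) ≤ n := by exact_mod_cast h33
  obtain ⟨r, hr⟩ : ∃ r : ℤ, r = (⌊ε * n⌋₊ : ℤ) := ⟨_, rfl⟩
  rw [← hr] at hz1 hz2
  simp only [← hr] at hz0
  have hεn : 0 ≤ ε * n := by positivity
  have hr1 : 1 ≤ r := by
    rw [hr]; exact_mod_cast (Nat.one_le_floor_iff _).2 h31
  have hrε : (r : ℝ) ≤ ε * n := by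
    rw [hr, Int.cast_natCast]; exact Nat.floor_le hεn
  have hrn : r ≤ n := by
    have : (r : ℝ) ≤ n := hrε.trans (by nlinarith)
    exact_mod_cast this
  obtain ⟨b, hb⟩ : ∃ b, b = bsite p Q n := ⟨_, rfl⟩
  rw [← hb] at h11 h12 hz0 hz3 ⊢
  have hAr : ((K * ((K + 4) * r) : ℤ) : ℝ) ≤ A * ε * n := by
    push_cast; rw [hA]
    calc (K : ℝ) * ((K + 4) * r) = K * (K + 4) * r := by ring
      _ ≤ K * (K + 4) * (ε * n) := by gcongr
      _ = _ := by ring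
  have hCn : (2 : ℤ) ≤ (C + 1) * n := by
    have : (0 : ℤ) ≤ C := by positivity
    nlinarith
  refine ⟨fun v hv => ?_, by nlinarith, ?_⟩
  · have := h11 v hv
    have : (0 : ℤ) ≤ C * n := by positivity
    nlinarith
  have hfl : 1 ≤ ⌊κ1 * (n : ℝ)⌋ := Int.le_floor.2 (by exact_mod_cast h32)
  have hρ : (K : ℤ) * ((K + 4) * r) ≤ ⌊κ1 * (n : ℝ)⌋ := by
    refine Int.le_floor.2 (hAr.trans ?_)
    have : (0 : ℝ) ≤ n := by positivity
    nlinarith
  have hρ0 : 0 ≤ (K : ℤ) * ((K + 4) * r) := by positivity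
  have hcard : ((Finset.range (m + 1)).image z).card ≤ m + 1 :=
    Finset.card_image_le.trans (Finset.card_range _).le
  have hP := fair_mu.prob
  refine (mul_le_mul_of_nonneg_left (measureReal_mono (flat_sub_HArm hT hfl hρ0 hρ))
    (by positivity)).trans ?_
  refine (prob_ge hc0 hK hge (col b) (pdir p 0) b (K * ((K + 4) * r)) r ((K + 4) * r)
    ((C + 1) * n) hr1 (by nlinarith) (by omega) _ _ hcard).trans (measureReal_mono ?_)
  rintro ω ⟨w1, w2, w3, w4⟩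
  refine ⟨out_path (r0 := pdir p 0) (r := r) (R := K * r) (r' := (K + 4) * r)
    (i0 := K * (K + 4)) (m := m) (z := z) hr1 hK rfl rfl ?_ hz0 him le_rfl hz1 hz2 ?_ w1 ?_ w3,
    NX_sub_NCc _ _ _ _ w4⟩
  · intro v hv hvq hvD
    refine (h12 v ?_).1 hvD hvq
    have : ((nm (v - b) : ℤ) : ℝ) ≤ ((K * ((K + 4) * r) : ℤ) : ℝ) := by exact_mod_cast hv
    refine this.trans (hAr.trans ?_)
    have : (0 : ℝ) ≤ n := by positivity
    nlinarith
  · have h5 : (((K : ℤ) * ((C + 1) * n) + r : ℤ) : ℝ) < ((nm (z m - b) : ℤ) : ℝ) := by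
      refine lt_of_le_of_lt ?_ hz3
      push_cast
      have : (r : ℝ) ≤ n := by exact_mod_cast hrn
      nlinarith
    exact_mod_cast h5
  · intro i hi
    exact w2 _ (Finset.mem_image_of_mem _ (Finset.mem_range.2 (by omega)))

end Vale.Agent.P167.H166N
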