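import Vale.Agent.P167.H662.StartDefs

/-!
# P167, block VOUT, V4: lower bound of the exterior event (exact statements)
-/

namespace Vale.Agent.P167.H166N

open MeasureTheory Filter Vale.Agent.P145.FB Vale.Agent.P167.H632 Vale.Agent.P167.H662
  Vale.Agent.P167.H825
open Vale.Agent.P167.E6 (IsPolygon Encloses dir)

/-- the closed half plane (sites) on the right hand side of the line of direction `r` through `z` -/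
def Hs (r : Fin 4) (z : ℤ × ℤ) : Set (ℤ × ℤ) :=
  match r with
  | 0 => {w | w.2 ≤ z.2}
  | 1 => {w | z.1 ≤ w.1}
  | 2 => {w | z.2 ≤ w.2}
  | 3 => {w | w.1 ≤ z.1}

/-- the squares on the right hand side -/
def Qs (r : Fin 4) (z : ℤ × ℤ) : Set (ℤ × ℤ) :=
  match r with
  | 0 => {v | v.2 < z.2}
  | 1 => {v | z.1 ≤ v.1}
  | 2 => {v | z.2 ≤ v.2}
  | 3 => {v | v.1 < z.1}

/-- **T1-flat**: no strand over `z` on the right hand side: half plane arm of the colour of `z`. -/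
def T1F : Prop := ∀ (r : Fin 4) (z : ℤ × ℤ) (R : ℤ), 1 ≤ R → ∀ ω ∈ FlatD r z R,
  ∃ t, R ≤ nm (t - z) ∧ PConn (cs (col z) ω) (Hs r z) z t

/-- the exterior event of 944 -/
def OutEv (D : Finset (ℤ × ℤ)) (b x0 : ℤ × ℤ) (R1 R2 : ℤ) : Set Cfg :=
  {ω | ∃ t, R2 < nm (t - x0) ∧ PConn (cs (col b) ω ∩ {v | v ∉ D}) Set.univ b t} ∩
    NCc (col b) x0 R1 R2

/-- **the geometric input** (helper199): the outside of the polygon near the base point, a chain of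
centres which leads from the base point to the outside -/
def GEOX : Prop :=
  ∀ (l : ℕ) [NeZero l] (p : ZMod l → ℤ × ℤ) (S₀ : Finset (ℤ × ℤ)), IsPolygon p → Encloses p S₀ →
  ∀ Q : Marks, Q.Ok → ∃ (C : ℕ) (k : ℝ), 0 < k ∧
    (∀ᶠ n : ℕ in atTop, (∀ v ∈ enl S₀ n, nm (v - bsite p Q n) + 2 ≤ C * n) ∧
      ∀ v : ℤ × ℤ, (nm (v - bsite p Q n) : ℝ) ≤ k * n →
        (v ∈ enl S₀ n ↔ v ∉ Qs (pdir p 0) (bsite p Q n))) ∧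
    ∀ (K i0 : ℕ) (R2 : ℝ), ∃ ε0 : ℝ, 0 < ε0 ∧ ∀ ε : ℝ, 0 < ε → ε < ε0 → ∃ m : ℕ, i0 ≤ m ∧
      ∀ᶠ n : ℕ in atTop, ∃ z : ℕ → ℤ × ℤ,
        (∀ i ≤ i0, z i = bsite p Q n + (((K : ℤ) + 2 + i) * (⌊ε * n⌋₊ : ℤ)) •
          dir (pdir p 0 - 1)) ∧
        (∀ i < m, nm (z (i + 1) - z i) ≤ (⌊ε * n⌋₊ : ℤ)) ∧
        (∀ i ≤ m, ∀ v : ℤ × ℤ, nm (v - z i) ≤ ((K : ℤ) + 1) * (⌊ε * n⌋₊ : ℤ) →
          v ∉ enl S₀ n) ∧
        R2 * n < nm (z m - bsite p Q n)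

/-- **V4** -/
def V4 : Prop :=
  ∀ (l : ℕ) [NeZero l] (p : ZMod l → ℤ × ℤ) (S₀ : Finset (ℤ × ℤ)), IsPolygon p → Encloses p S₀ →
  ∀ Q : Marks, Q.Ok → ∀ κ1 : ℝ, 0 < κ1 → ∃ c₀ : ℝ, 0 < c₀ ∧ ∃ R1 R2 : ℕ → ℤ,
    ∀ᶠ n : ℕ in atTop, (∀ v ∈ enl S₀ n, nm (v - bsite p Q n) + 2 ≤ R1 n) ∧ R1 n < R2 n ∧
      c₀ * μ.real (FlatD (pdir p 0) (bsite p Q n) ⌊κ1 * (n : ℝ)⌋) ≤
        μ.real (OutEv (enl S₀ n) (bsite p Q n) (bsite p Q n) (R1 n) (R2 n))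

end Vale.Agent.P167.H166N
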