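import Vale.Agent.P167.H632.Prob
import Vale.Agent.P167.H192.Inter

/-!
# P167, block GP (probability of the gate event of H318): the two halves

* `G2a` (contact): the open cluster of `B` in `D` crosses the strip `h1 ≤ y ≤ h2` inside
  `x1 ≤ x ≤ x2`; a dual path of a fresh configuration crosses it in the strip; cut at its first
  contact with the squares which were revealed by the cluster it gives a medial edge.
* `G2b`: the two-stage lower bound.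
-/

namespace Vale.Agent.P167.H166N

open Vale.Agent.P167 Vale.Agent.P145.FB Vale.Agent.P167.H558
open MeasureTheory Relation

/-- the open cluster of the sites `B` in the squares `D` -/
def OC (D : Finset (ℤ × ℤ)) (B : Set (ℤ × ℤ)) (ω : Cfg) : Set (ℤ × ℤ) :=
  {v | ∃ b ∈ B, PConn (op ω ∩ ↑D) Set.univ b v}

open scoped Classical in
/-- the squares of `D` with a corner in the cluster: `v` is a corner of `q`, of the parity of the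
cluster iff some `PStep {q} v v'` exists -/
noncomputable def RC (D : Finset (ℤ × ℤ)) (B : Set (ℤ × ℤ)) (ω : Cfg) : Finset (ℤ × ℤ) :=
  D.filter fun q => ∃ u ∈ OC D B ω, ∃ v, PStep {q} u v

/-- contact -/
def G2a : Prop := ∀ (D U : Finset (ℤ × ℤ)) (B S : Set (ℤ × ℤ)) (x1 x2 h1 h2 : ℤ) (ω ω' : Cfg)
  (b' t0 t1 : ℤ × ℤ), x1 < x2 → h1 < h2 →
  (∀ b ∈ B, (b.1 + b.2) % 2 = 0 ∧ b.2 ≤ h1) →
  (∀ q ∈ D, h1 ≤ q.2 → q.2 < h2 → x1 ≤ q.1 ∧ q.1 < x2) →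
  (∀ q ∈ U, q.2 < h1 ∨ h2 ≤ q.2) →
  b' ∈ OC D B ω → h2 ≤ b'.2 →
  (∀ s ∈ S, h1 ≤ s.2 ∧ s.2 ≤ h2) → (t0.1 + t0.2) % 2 = 1 → t0.1 ≤ x1 → x2 ≤ t1.1 →
  PConn (op ω')ᶜ S t0 t1 →
  ∃ e : Ed, ls e ∈ OC D B ω ∧ h1 ≤ (ls e).2 ∧ (ls e).2 ≤ h2 ∧
    (x1 - 1 ≤ (hdv e).1 ∧ (hdv e).1 ≤ x2 ∧ h1 - 1 ≤ (hdv e).2 ∧ (hdv e).2 ≤ h2) ∧
    (x1 - 1 ≤ (tlv e).1 ∧ (tlv e).1 ≤ x2 ∧ h1 - 1 ≤ (tlv e).2 ∧ (tlv e).2 ≤ h2) ∧
    PConn (op (glue (↑(U ∪ RC D B ω)) ω ω'))ᶜ S t0 (rs e)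

/-- two stages: `E` is determined by the squares of `U ∪ RC`; no measurability of `A` is needed
(take `toMeasurable`) -/
def G2b : Prop := ∀ (D U : Finset (ℤ × ℤ)) (B : Set (ℤ × ℤ)) (E W A : Set Cfg),
  (∀ ω ω' : Cfg, ω ∈ E → (∀ v ∈ U ∪ RC D B ω, ω' v = ω v) → ω' ∈ E) →
  MeasurableSet W →
  (∀ ω ∈ E, ∀ ω' ∈ W, glue (↑(U ∪ RC D B ω)) ω ω' ∈ A) → μ.real E * μ.real W ≤ μ.real A

end Vale.Agent.P167.H166N
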