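import Vale.Agent.P167.H166N.Gate

/-!
# P167, block GP: the probability of the gate event is bounded below
-/

namespace Vale.Agent.P167.H166N

open Vale.Agent.P145.FB Vale.Agent.P167 Vale.Agent.P167.H632 Vale.Agent.P167.H558
open Vale.Agent.P167.H871 (Dep Fair fair_mu)
open MeasureTheory Relation


theorem mem_RC {D : Finset (ℤ × ℤ)} {B : Set (ℤ × ℤ)} {ω : Cfg} {q : (ℤ × ℤ)} :
    q ∈ RC D B ω ↔ q ∈ D ∧ ∃ u ∈ OC D B ω, ∃ v, PStep {q} u v := by
  classical
  unfold RC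
  rw [Finset.mem_filter]

theorem oc_mono {D : Finset (ℤ × ℤ)} {B : Set (ℤ × ℤ)} {ω ω' : Cfg} (h : ∀ q ∈ RC D B ω, ω' q = ω q) :
    OC D B ω ⊆ OC D B ω' := by
  rintro v ⟨b, hb, hbv⟩
  obtain ⟨h0, h1⟩ := hbv
  refine ⟨b, hb, ?_⟩
  induction h1 with
  | refl => exact PConn.refl h0
  | @tail x y hx hxy ih =>
    refine ih.tail ⟨hxy.1.1, hxy.1.2.1, ?_, hxy.1.2.2.2⟩ hxy.2
    have hq : (min x.1 y.1, min x.2 y.2) ∈ RC D B ω := by
      refine mem_RC.2 ⟨hxy.1.2.2.2, x, ⟨b, hb, h0, hx⟩, y, hxy.1.1, hxy.1.2.1, rfl⟩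
    have h2 : ω (min x.1 y.1, min x.2 y.2) = true := hxy.1.2.2.1
    show ω' _ = true
    rw [h _ hq, h2]

/-- the squares of the nodes -/
theorem bq_sub {b : (ℤ × ℤ)} {R : ℤ} {U : Finset (ℤ × ℤ)}
    (h : ∀ v : (ℤ × ℤ), b.1 - R ≤ v.1 → v.1 ≤ b.1 + R → b.2 - R ≤ v.2 → v.2 ≤ b.2 + R → v ∈ U) :
    bq b R ⊆ U := by
  intro v hv
  rw [mem_bq, mem_bl] at hv
  exact h v hv.1 hv.2.1 hv.2.2.1 hv.2.2.2

/-- arithmetic of the segments -/
theorem Dat.e {x l r R M : ℤ} {K : ℕ} (hd : Dat x l r R M K) (n : ℕ) :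
    ((n * K : ℕ) : ℤ) * r = n * R := by
  push_cast; rw [mul_assoc, ← hd.hR]

theorem Zl_mem {x l r R M : ℤ} {K : ℕ} (hd : Dat x l r R M K) {b : (ℤ × ℤ)} (hb : b ∈ Zl x r R M K) :
    b.1 = x + 3 * M ∧ -R ≤ b.2 ∧ b.2 ≤ M + 3 * R := by
  have hr := hd.hr
  have hM := hd.hM
  have e1 := hd.e 104
  have := of_mem_vs (a' := (x + 3 * M, M + 3 * R)) (by omega)
    (by dsimp only; rw [e1, hM]; push_cast; ring) hb
  exact this

theorem Zu_mem {x l r R M : ℤ} {K : ℕ} (hd : Dat x l r R M K) {b : (ℤ × ℤ)} (hb : b ∈ Zu x r R M K) :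
    (b.1 = x + 3 * M ∧ M + 13 * R ≤ b.2 ∧ b.2 ≤ 7 * M) ∨
    (b.2 = 7 * M ∧ x - 3 * M ≤ b.1 ∧ b.1 ≤ x + 3 * M) ∨
    (b.1 = x - 3 * M ∧ 4 * M - 2 * R ≤ b.2 ∧ b.2 ≤ 7 * M) := by
  have hr := hd.hr
  have hM := hd.hM
  unfold Zu at hb
  rw [Finset.mem_union, Finset.mem_union] at hb
  rcases hb with hb | hb | hb
  · exact Or.inl (of_mem_vs (a' := (x + 3 * M, 7 * M)) (by omega)
      (by dsimp only; rw [hd.e 587, hM]; push_cast; ring) hb)
  · exact Or.inr (Or.inl (of_mem_hs (a' := (x + 3 * M, 7 * M)) (by omega)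
      (by dsimp only; rw [hd.e 600, hM]; push_cast; ring) hb))
  · exact Or.inr (Or.inr (of_mem_vs (a' := (x - 3 * M, 7 * M)) (by omega)
      (by dsimp only; rw [hd.e 302, hM]; push_cast; ring) hb))

theorem Zw_mem {x l r R M : ℤ} {K : ℕ} (hd : Dat x l r R M K) {b : (ℤ × ℤ)} (hb : b ∈ Zw x r R M K) :
    (b.1 = x - 2 * M ∧ b.2 ≤ 6 * M) ∨
    (b.2 = 6 * M ∧ x - 2 * M ≤ b.1 ∧ b.1 ≤ x + 2 * M) ∨
    (b.1 = x + 2 * M ∧ 4 * M - 2 * R ≤ b.2 ∧ b.2 ≤ 6 * M) := by
  have hr := hd.hr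
  have h3 := hd.h3
  have hM := hd.hM
  unfold Zw at hb
  rw [Finset.mem_union, Finset.mem_union, Finset.mem_union] at hb
  rcases hb with (hb | hb) | hb | hb
  · have := of_mem_vs (a' := (x - 2 * M, M + 8 * R)) (by omega)
      (by dsimp only; rw [hd.e 109, hM]; push_cast; ring) hb
    dsimp only at this
    exact Or.inl ⟨this.1, by omega⟩
  · have := of_mem_vs (a' := (x - 2 * M, 6 * M)) (by omega)
      (by dsimp only; rw [hd.e 492, hM]; push_cast; ring) hb
    exact Or.inl ⟨this.1, this.2.2⟩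
  · exact Or.inr (Or.inl (of_mem_hs (a' := (x + 2 * M, 6 * M)) (by omega)
      (by dsimp only; rw [hd.e 400, hM]; push_cast; ring) hb))
  · exact Or.inr (Or.inr (of_mem_vs (a' := (x + 2 * M, 6 * M)) (by omega)
      (by dsimp only; rw [hd.e 202, hM]; push_cast; ring) hb))

/-- **`EE` is determined by the revealed squares.** -/
theorem EE_det {x l r R M : ℤ} {K : ℕ} (hd : Dat x l r R M K) (ω ω' : Cfg)
    (hω : ω ∈ EE x r R M K)
    (h : ∀ v ∈ UU x R M ∪ RC (DD x R M) (BB x r R M) ω, ω' v = ω v) : ω' ∈ EE x r R M K := by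
  have hr := hd.hr
  have h3 := hd.h3
  have hM := hd.hM
  obtain ⟨h1, h2, b', hb', h4⟩ := hω
  have hU : ∀ v ∈ UU x R M, ω v = ω' v := fun v hv => (h v (Finset.mem_union_left _ hv)).symm
  refine ⟨?_, ?_, b', oc_mono (fun q hq => h q (Finset.mem_union_right _ hq)) hb', h4⟩
  · refine dep_nds (U := UU x R M) (by omega) (fun b hb => bq_sub fun v v1 v2 v3 v4 => ?_) ω ω' hU h1
    have := Zl_mem hd hb
    rw [UU, Finset.mem_union, Finset.mem_union, Finset.mem_union, mem_icc, mem_icc, mem_icc,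
      mem_icc]
    omega
  · refine dep_nds (U := UU x R M) (by omega) (fun b hb => bq_sub fun v v1 v2 v3 v4 => ?_) ω ω' hU h2
    have := Zu_mem hd hb
    rw [UU, Finset.mem_union, Finset.mem_union, Finset.mem_union, mem_icc, mem_icc, mem_icc,
      mem_icc]
    omega

/-- **`EE` contains a finite set of nodes.** -/
theorem EE_of_nds {x l r R M : ℤ} {K : ℕ} (hd : Dat x l r R M K) :
    Nds true (Zl x r R M K ∪ (Zm x r R M K ∪ Zu x r R M K)) r R ⊆ EE x r R M K := by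
  intro ω hω
  have hr := hd.hr
  have h3 := hd.h3
  have hM := hd.hM
  have hr0 : 0 ≤ r := by omega
  have hR1 : 2 * r + 1 ≤ R := by omega
  have hm : ω ∈ Nds true (Zm x r R M K) r R :=
    Nds.mono (Finset.subset_union_left.trans Finset.subset_union_right) hω
  refine ⟨Nds.mono Finset.subset_union_left hω,
    Nds.mono (Finset.subset_union_right.trans Finset.subset_union_right) hω, ?_⟩
  have e2 : M + 13 * R = M + 3 * R + ((10 * K : ℕ) : ℤ) * r := by
    rw [hd.e 10]; push_cast; ring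
  have n1 : ω ∈ nd true (x + 3 * M, M + 3 * R) r R := by
    have := hm _ (mem_vs (a := (x + 3 * M, M + 3 * R)) (r := r) (n := 10 * K) (i := 0) (by omega))
    simpa using this
  have n2 : ω ∈ nd true (x + 3 * M, M + 13 * R) r R := by
    have := hm _ (mem_vs (a := (x + 3 * M, M + 3 * R)) (r := r) (n := 10 * K) (i := 10 * K) le_rfl)
    rw [e2]; exact this
  obtain ⟨y1, hy1⟩ := exists_hub n1
  obtain ⟨y2, hy2⟩ := exists_hub n2
  have c12 := vtube hr0 hR1 hm (a' := (x + 3 * M, M + 13 * R)) rfl e2 hy1 hy2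
  refine ⟨y2, ⟨y1, ⟨hy1.1, hy1.2.1⟩, ?_⟩, hy2.2.1⟩
  have c12' : PConn (op ω ∩ ↑(DD x R M)) (Set.Icc (x + 3 * M - R, M + 3 * R - R)
      (x + 3 * M + R, M + 13 * R + R)) y1 y2 := by
    refine pconn_congr (F' := op ω ∩ ↑(DD x R M)) (fun a b hab ha hb => ⟨hab.2.2, ?_⟩) c12
    have h1 := hab.1
    have h2 := hab.2.1
    rw [Set.mem_Icc, Prod.le_def, Prod.le_def] at ha hb
    dsimp only at ha hb
    rw [Finset.mem_coe, DD, Finset.mem_union, mem_icc, mem_icc]
    dsimp only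
    left
    omega
  exact c12'.mono subset_rfl (Set.subset_univ _)

/-- the end nodes of the horizontal tube -/
theorem glue_gate (h2a : G2a) {x l r R M : ℤ} {K : ℕ} (hd : Dat x l r R M K) {ω ω' : Cfg}
    (hω : ω ∈ EE x r R M K) (hω' : ω' ∈ Nds false (Zw x r R M K ∪ Zh x r R M K) r R) :
    glue (↑(UU x R M ∪ RC (DD x R M) (BB x r R M) ω)) ω ω' ∈ H318.GE x l := by
  have hr := hd.hr
  have h3 := hd.h3
  have hM := hd.hM
  have hr0 : 0 ≤ r := by omega
  have hR1 : 2 * r + 1 ≤ R := by omega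
  obtain ⟨gl, hgl⟩ : ∃ gl, gl = glue (↑(UU x R M ∪ RC (DD x R M) (BB x r R M) ω)) ω ω' :=
    ⟨_, rfl⟩
  rw [← hgl]
  have a1 : ∀ v ∈ UU x R M ∪ RC (DD x R M) (BB x r R M) ω, gl v = ω v := fun v hv => by
    rw [hgl]; exact glue_mem (Finset.mem_coe.2 hv)
  have a2 : ∀ v, v ∉ UU x R M → v ∉ DD x R M → gl v = ω' v := fun v hv hv' => by
    rw [hgl]
    refine glue_not_mem fun h => ?_
    rcases Finset.mem_union.1 (Finset.mem_coe.1 h) with h | h
    · exact hv h
    · exact hv' (mem_RC.1 h).1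
  have hE : gl ∈ EE x r R M K := EE_det hd ω gl hω a1
  have hU : ∀ v : (ℤ × ℤ), (v.1 ≤ x - M - 1 ∧ x - 3 * M + 3 * R ≤ v.1 ∧ v.2 ≤ 6 * M + 2 * R) ∨
      (x - 3 * M + 3 * R ≤ v.1 ∧ v.1 ≤ x + 3 * M - 3 * R ∧ M + 16 * R ≤ v.2 ∧
        v.2 ≤ 6 * M + 2 * R) → v ∉ UU x R M ∧ v ∉ DD x R M := by
    intro v hv
    rw [UU, DD, Finset.mem_union, Finset.mem_union, Finset.mem_union, Finset.mem_union, mem_icc,
      mem_icc, mem_icc, mem_icc, mem_icc, mem_icc]
    omega
  have hW : gl ∈ Nds false (Zw x r R M K) r R := by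
    have hω1 := Nds.mono Finset.subset_union_left hω'
    refine dep_nds (U := (Zw x r R M K).biUnion fun b => bq b (R + r)) (by omega)
      (fun b hb => Finset.subset_biUnion_of_mem (fun b => bq b (R + r)) hb) ω' gl ?_ hω1
    intro v hv
    rw [Finset.mem_biUnion] at hv
    obtain ⟨b, hb, hv⟩ := hv
    rw [mem_bq, mem_bl] at hv
    have h5 := Zw_mem hd hb
    have h6 := hU v (by omega)
    exact (a2 v h6.1 h6.2).symm
  -- the horizontal tube
  have hh : ω' ∈ Nds false (hs (x - 2 * M, M + 8 * R) r (504 * K)) r R :=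
    Nds.mono Finset.subset_union_right hω'
  have e5 : x + 3 * M + 4 * R = x - 2 * M + ((504 * K : ℕ) : ℤ) * r := by
    rw [hd.e 504, hM]; push_cast; ring
  have n1 : ω' ∈ nd false (x - 2 * M, M + 8 * R) r R := by
    have := hh _ (mem_hs (a := (x - 2 * M, M + 8 * R)) (r := r) (n := 504 * K) (i := 0) (by omega))
    simpa using this
  have n2 : ω' ∈ nd false (x + 3 * M + 4 * R, M + 8 * R) r R := by
    have := hh _ (mem_hs (a := (x - 2 * M, M + 8 * R)) (r := r) (n := 504 * K) (i := 504 * K)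
      le_rfl)
    rw [e5]; exact this
  obtain ⟨t0, ht0⟩ := exists_hub n1
  obtain ⟨t1, ht1⟩ := exists_hub n2
  have q0 := hub_pos ht0
  have q1 := hub_pos ht1
  dsimp only at q0 q1
  have c := htube hr0 hR1 hh (a' := (x + 3 * M + 4 * R, M + 8 * R)) rfl e5 ht0 ht1
  rw [cs_false] at c
  have hcS : PConn (op ω')ᶜ (SS x R M) t0 t1 := by
    refine rect_sub c fun w w1 w2 w3 w4 => ?_
    dsimp only at w1 w2 w3 w4
    rw [SS, Set.mem_Icc, Prod.le_def, Prod.le_def]
    dsimp only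
    omega
  have hω0 := hω
  obtain ⟨-, -, b', hb', hb'n⟩ := hω0
  rw [nm_le] at hb'n
  simp only [Prod.fst_sub, Prod.snd_sub] at hb'n
  obtain ⟨e, he1, he2, he3, he4, he5, he6⟩ := h2a (DD x R M) (UU x R M) (BB x r R M) (SS x R M)
    (x - M) (x + 3 * M + 2 * R) (M + 6 * R) (M + 10 * R) ω ω' b' t0 t1 (by omega) (by omega)
    (fun b hb => by
      have := hb.2
      rw [nm_le] at this
      simp only [Prod.fst_sub, Prod.snd_sub] at this
      exact ⟨hb.1, by omega⟩)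
    (fun q hq => by
      rw [DD, Finset.mem_union, mem_icc, mem_icc] at hq
      omega)
    (fun q hq => by
      rw [UU, Finset.mem_union, Finset.mem_union, Finset.mem_union, mem_icc, mem_icc, mem_icc,
        mem_icc] at hq
      omega) hb' (by omega)
    (fun s hs => by
      rw [SS, Set.mem_Icc, Prod.le_def, Prod.le_def] at hs
      dsimp only at hs
      omega) ht0.1 (by omega) (by omega) hcS
  obtain ⟨p1, p2, t0', h7, h8⟩ := ht0
  rw [← hgl] at he6
  refine ⟨e, gate_of hd hE hW p1 p2 h7 ?_ (oc_mono (fun q hq =>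
    a1 q (Finset.mem_union_right _ hq)) he1) he2 he4 he5 he6⟩
  refine (pconn_bl subset_rfl (fun v hv hc => ?_) h8).mono subset_rfl (Set.subset_univ _)
  rw [mem_bq, mem_bl] at hv
  dsimp only at hv
  have h6 := hU v (by omega)
  rw [a2 v h6.1 h6.2, hc]

/-- **GP** from the two halves. -/
theorem gp_of (h2a : G2a) (h2b : G2b) : H318.GP := by
  obtain ⟨K, c0, hK, hc0, hge⟩ := nds_ge
  have hP := fair_mu.prob
  have hc1 : c0 ≤ 1 := by
    have h := hge true {(0, 0)} 1 le_rfl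
    rw [Finset.card_singleton, pow_one] at h
    exact h.trans measureReal_le_one
  have hK' : (3 : ℤ) ≤ K := by exact_mod_cast hK
  refine ⟨c0 ^ (3000 * K) * c0 ^ (3000 * K), (100 * K + 1) * (100 * K), by positivity,
    fun x l hl => ?_⟩
  obtain ⟨r, hr⟩ : ∃ r : ℤ, r = l / (100 * K) := ⟨_, rfl⟩
  have h1 : 100 * K * r ≤ l := by rw [hr]; exact Int.mul_ediv_self_le (by omega)
  have h2 : l < 100 * K * r + 100 * K := by rw [hr]; exact Int.lt_mul_ediv_self_add (by omega)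
  have h3 : 100 * (K : ℤ) ≤ r := by
    by_contra h
    push Not at h
    nlinarith
  have hd : Dat x l r (K * r) (100 * (K * r)) K :=
    ⟨by omega, hK, rfl, rfl, by linarith [mul_assoc (100 : ℤ) K r], by
      linarith [mul_assoc (100 : ℤ) K r]⟩
  have hpow : ∀ n : ℕ, n ≤ 3000 * K → c0 ^ (3000 * K) ≤ c0 ^ n := fun n hn =>
    pow_le_pow_of_le_one hc0.le hc1 hn
  have hE : c0 ^ (3000 * K) ≤ μ.real (EE x r (K * r) (100 * (K * r)) K) := by
    refine ((hpow _ ?_).trans (hge true _ r (by omega))).trans (measureReal_mono (EE_of_nds hd))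
    refine (Finset.card_union_le _ _).trans ?_
    have g1 := Finset.card_union_le (Zm x r (K * r) (100 * (K * r)) K)
      (Zu x r (K * r) (100 * (K * r)) K)
    have g2 : (Zu x r (K * r) (100 * (K * r)) K).card ≤ (587 * K + 1) + ((600 * K + 1) +
        (302 * K + 1)) := by
      unfold Zu
      refine (Finset.card_union_le _ _).trans (add_le_add (card_vs _ _ _) ?_)
      exact (Finset.card_union_le _ _).trans (add_le_add (card_hs _ _ _) (card_vs _ _ _))
    have g3 := card_vs (x + 3 * (100 * (K * r)), -(K * r)) r (104 * K)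
    have g4 := card_vs (x + 3 * (100 * (K * r)), 100 * (K * r) + 3 * (K * r)) r (10 * K)
    change (Zl x r (K * r) (100 * (K * r)) K).card ≤ _ at g3
    change (Zm x r (K * r) (100 * (K * r)) K).card ≤ _ at g4
    omega
  have hW : c0 ^ (3000 * K) ≤ μ.real (Nds false (Zw x r (K * r) (100 * (K * r)) K ∪
      Zh x r (K * r) (100 * (K * r)) K) r (K * r)) := by
    refine (hpow _ ?_).trans (hge false _ r (by omega))
    refine (Finset.card_union_le _ _).trans ?_
    have g2 : (Zw x r (K * r) (100 * (K * r)) K).card ≤ ((109 * K + 1) + (492 * K + 1)) +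
        ((400 * K + 1) + (202 * K + 1)) := by
      unfold Zw
      refine (Finset.card_union_le _ _).trans (add_le_add ?_ ?_)
      · exact (Finset.card_union_le _ _).trans (add_le_add (card_vs _ _ _) (card_vs _ _ _))
      · exact (Finset.card_union_le _ _).trans (add_le_add (card_hs _ _ _) (card_vs _ _ _))
    have g3 := card_hs (x - 2 * (100 * (K * r)), 100 * (K * r) + 8 * (K * r)) r (504 * K)
    change (Zh x r (K * r) (100 * (K * r)) K).card ≤ _ at g3
    omega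
  refine (mul_le_mul hE hW (by positivity) measureReal_nonneg).trans ?_
  refine h2b (DD x (K * r) (100 * (K * r))) (UU x (K * r) (100 * (K * r)))
    (BB x r (K * r) (100 * (K * r))) _ _ _ (fun ω ω' hω h => EE_det hd ω ω' hω h) ?_
    (fun ω hω ω' hω' => glue_gate h2a hd hω hω')
  refine (dep_nds (U := (Zw x r (K * r) (100 * (K * r)) K ∪
      Zh x r (K * r) (100 * (K * r)) K).biUnion fun b => bq b (K * r + r)) (by omega)
    (fun b hb => Finset.subset_biUnion_of_mem (fun b => bq b (K * r + r)) hb)).meas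

end Vale.Agent.P167.H166N
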