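import Vale.Agent.P167.H632.Prob

/-!
# P167, block GP: tubes

A node of colour `c` at `b`: a radial crossing of colour `c` from the box of radius `r` to distance
`R + r`, and no crossing of the annulus `(2 r + 1, R)` by the other colour.  The nodes whose centres
are at distance `≤ r` are joined.  The probability of a finite set of nodes is bounded below
uniformly in the scale.
-/

namespace Vale.Agent.P167.H166N

open Vale.Agent.P145.FB Vale.Agent.P167 Vale.Agent.P167.H632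
open Vale.Agent.P167.H871 (Dep Fair fair_mu)
open MeasureTheory Relation


/-! ### congruence -/

/-- the squares of the box `[b - R, b + R]` -/
noncomputable def bq (b : (ℤ × ℤ)) (R : ℤ) : Finset (ℤ × ℤ) :=
  Finset.Icc (b.1 - R, b.2 - R) (b.1 + R, b.2 + R)

theorem mem_bq {b v : (ℤ × ℤ)} {R : ℤ} : v ∈ bq b R ↔ v ∈ bl b R := mem_Icc_bl

theorem pconn_congr {F F' Rg : Set (ℤ × ℤ)} (h : ∀ x y : (ℤ × ℤ), PStep F x y → x ∈ Rg → y ∈ Rg →
    (min x.1 y.1, min x.2 y.2) ∈ F') {u v : (ℤ × ℤ)} (huv : PConn F Rg u v) : PConn F' Rg u v := by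
  obtain ⟨h0, h1⟩ := huv
  induction h1 with
  | refl => exact PConn.refl h0
  | @tail x y hx hxy ih =>
    have hxm := (show PConn F Rg u x from ⟨h0, hx⟩).right_mem
    exact ih.tail ⟨hxy.1.1, hxy.1.2.1, h _ _ hxy.1 hxm hxy.2⟩ hxy.2

theorem pconn_bl {c : Bool} {o o' : Cfg} {b : (ℤ × ℤ)} {R : ℤ} {Rg : Set (ℤ × ℤ)} (hRg : Rg ⊆ bl b R)
    (h : ∀ v ∈ bq b R, o v = c → o' v = c) {u v : (ℤ × ℤ)}
    (huv : PConn (cs c o) Rg u v) : PConn (cs c o') Rg u v :=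
  pconn_congr (fun _ _ hxy hx hy =>
    h _ (mem_bq.2 (sq_mem_bl (hRg hx) (hRg hy))) hxy.2.2) huv

/-! ### plane annuli -/

/-- crossing of the annulus in the plane -/
def PX (c : Bool) (b : (ℤ × ℤ)) (r R : ℤ) : Set Cfg :=
  {ω | ∃ y y' : (ℤ × ℤ), (y.1 + y.2) % 2 = pr c ∧ nm (y - b) = r ∧ nm (y' - b) = R ∧
    PConn (cs c ω) (Set.univ ∩ an b r R) y y'}

/-- no crossing by the other colour -/
def NX (c : Bool) (b : (ℤ × ℤ)) (r R : ℤ) : Set Cfg := {ω | NoX (cs c ω) Set.univ (pr c) b r R}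

theorem NX_eq (c : Bool) (b : (ℤ × ℤ)) (r R : ℤ) : NX c b r R = (PX (!c) b r R)ᶜ := by
  ext ω
  simp only [NX, PX, NoX, Set.mem_compl_iff, Set.mem_ofPred_eq, pr_not, cs_compl]
  push Not
  rfl

theorem PX_sub_Arm (c : Bool) (b : (ℤ × ℤ)) (r R : ℤ) : PX c b r R ⊆ Arm c b r R := by
  rintro ω ⟨y, y', h1, h2, h3, h4⟩
  exact ⟨y, y', h1, h2.le, h3.ge, h4.mono subset_rfl (Set.subset_univ _)⟩

theorem an_sub {b : (ℤ × ℤ)} {r R : ℤ} : Set.univ ∩ an b r R ⊆ bl b R := fun _ h => h.2.2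

theorem dep_PX (c : Bool) (b : (ℤ × ℤ)) (r R : ℤ) : Dep (bq b R) (PX c b r R) := by
  rintro o o' ho ⟨y, y', h1, h2, h3, h4⟩
  exact ⟨y, y', h1, h2, h3, pconn_bl an_sub (fun v hv h => by rw [← ho v hv]; exact h) h4⟩

theorem inc_PX (c : Bool) (b : (ℤ × ℤ)) (r R : ℤ) : IncC c (PX c b r R) := by
  rintro o o' ho ⟨y, y', h1, h2, h3, h4⟩
  exact ⟨y, y', h1, h2, h3, pconn_bl an_sub (fun v _ h => ho v h) h4⟩

theorem dep_NX (c : Bool) (b : (ℤ × ℤ)) (r R : ℤ) : Dep (bq b R) (NX c b r R) := by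
  rw [NX_eq]; exact (dep_PX _ _ _ _).compl

theorem inc_NX (c : Bool) (b : (ℤ × ℤ)) (r R : ℤ) : IncC c (NX c b r R) := by
  rw [NX_eq]
  have := (inc_PX (!c) b r R).compl
  rwa [Bool.not_not] at this

theorem aq_sub_bq {b : (ℤ × ℤ)} {r R : ℤ} : aq b r R ⊆ bq b R := fun _ hv =>
  mem_bq.2 (mem_aq.1 hv).1

/-! ### nodes -/

/-- a node -/
def nd (c : Bool) (b : (ℤ × ℤ)) (r R : ℤ) : Set Cfg := HB c b r (R + r) ∩ NX c b (2 * r + 1) R

/-- all the nodes of `Z` -/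
def Nds (c : Bool) (Z : Finset (ℤ × ℤ)) (r R : ℤ) : Set Cfg := {ω | ∀ b ∈ Z, ω ∈ nd c b r R}

theorem Nds.mono {c : Bool} {Z Z' : Finset (ℤ × ℤ)} {r R : ℤ} (h : Z ⊆ Z') : Nds c Z' r R ⊆ Nds c Z r R :=
  fun _ hω b hb => hω b (h hb)

theorem dep_nd {c : Bool} {b : (ℤ × ℤ)} {r R : ℤ} (hr : 0 ≤ r) : Dep (bq b (R + r)) (nd c b r R) := by
  refine ((dep_HB c b r (R + r)).mono aq_sub_bq).inter ((dep_NX c b (2 * r + 1) R).mono ?_)
  intro v hv
  rw [mem_bq, mem_bl] at *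
  omega

theorem inc_nd (c : Bool) (b : (ℤ × ℤ)) (r R : ℤ) : IncC c (nd c b r R) :=
  (inc_HB c b r (R + r)).inter (inc_NX c b (2 * r + 1) R)

theorem dep_nds {c : Bool} {Z U : Finset (ℤ × ℤ)} {r R : ℤ} (hr : 0 ≤ r)
    (h : ∀ b ∈ Z, bq b (R + r) ⊆ U) : Dep U (Nds c Z r R) :=
  fun o o' ho hω b hb => ((dep_nd hr).mono (h b hb)) o o' ho (hω b hb)

theorem inc_nds (c : Bool) (Z : Finset (ℤ × ℤ)) (r R : ℤ) : IncC c (Nds c Z r R) :=
  fun o o' h hω b hb => inc_nd c b r R o o' h (hω b hb)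

/-- **Probability of finitely many nodes.** -/
theorem nds_ge : ∃ (K : ℕ) (c0 : ℝ), 3 ≤ K ∧ 0 < c0 ∧ ∀ (c : Bool) (Z : Finset (ℤ × ℤ)) (r : ℤ), 1 ≤ r →
    c0 ^ Z.card ≤ μ.real (Nds c Z r (K * r)) := by
  classical
  obtain ⟨C, α, hC, hα, harm⟩ := arm_le
  obtain ⟨K, hK3, hK⟩ : ∃ K : ℕ, 3 ≤ K ∧ C * ((3 : ℝ) / K) ^ α ≤ 1 / 2 := by
    have h1 : Filter.Tendsto (fun K : ℕ => C * ((3 : ℝ) / K) ^ α) Filter.atTop (nhds (C * 0)) := by
      refine Filter.Tendsto.const_mul C ?_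
      have h2 : Filter.Tendsto (fun K : ℕ => (3 : ℝ) / K) Filter.atTop (nhds 0) :=
        tendsto_const_div_atTop_nhds_zero_nat 3
      have h3 := h2.rpow_const (p := α) (Or.inr hα.le)
      rwa [Real.zero_rpow hα.ne'] at h3
    rw [mul_zero] at h1
    obtain ⟨K, h4, h5⟩ := ((Filter.Tendsto.eventually_lt_const (show (0 : ℝ) < 1 / 2 by norm_num)
      h1).and (Filter.eventually_ge_atTop 3)).exists
    exact ⟨K, h5, h4.le⟩
  obtain ⟨c1, hc1, hb⟩ := hb_ge (K + 1)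
  have hP := fair_mu.prob
  refine ⟨K, c1 * (1 / 2), hK3, by positivity, fun c Z r hr => ?_⟩
  have hKr : (K : ℤ) * r ≥ 3 * r := by
    have : (3 : ℤ) ≤ K := by exact_mod_cast hK3
    nlinarith
  have hnd : ∀ b : (ℤ × ℤ), c1 * (1 / 2) ≤ μ.real (nd c b r (K * r)) := by
    intro b
    have h1 : c1 ≤ μ.real (HB c b r (K * r + r)) := hb c b r (K * r + r) hr (by nlinarith)
      (by push_cast; nlinarith)
    have h2 : (1 / 2 : ℝ) ≤ μ.real (NX c b (2 * r + 1) (K * r)) := by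
      rw [NX_eq, probReal_compl_eq_one_sub (dep_PX _ _ _ _).meas]
      have h3 := harm (!c) b (2 * r + 1) (K * r) (by omega) (by omega)
      have h4 : μ.real (PX (!c) b (2 * r + 1) (K * r)) ≤ 1 / 2 := by
        refine (measureReal_mono (PX_sub_Arm _ _ _ _)).trans (h3.trans (le_trans ?_ hK))
        have hr' : (1 : ℝ) ≤ r := by exact_mod_cast hr
        have hK' : (0 : ℝ) < K := by positivity
        refine mul_le_mul_of_nonneg_left (Real.rpow_le_rpow (by positivity) ?_ hα.le) hC.le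
        push_cast
        rw [div_le_div_iff₀ (by positivity) hK']
        nlinarith
      linarith
    calc c1 * (1 / 2) ≤ μ.real (HB c b r (K * r + r)) * μ.real (NX c b (2 * r + 1) (K * r)) := by
          gcongr
      _ ≤ _ := fkg_c (dep_HB _ _ _ _) (dep_NX _ _ _ _) (inc_HB _ _ _ _) (inc_NX _ _ _ _)
  induction Z using Finset.induction_on with
  | empty =>
    have : Nds c ∅ r (K * r) = Set.univ := by
      ext ω; simp [Nds]
    rw [this]; simp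
  | insert b Z hbZ ih =>
    have e : Nds c (insert b Z) r (K * r) = nd c b r (K * r) ∩ Nds c Z r (K * r) := by
      ext ω
      simp only [Nds, Finset.mem_insert, forall_eq_or_imp, Set.mem_ofPred_eq, Set.mem_inter_iff]
    rw [e, Finset.card_insert_of_notMem hbZ, pow_succ']
    have hd : Dep (Z.biUnion fun b => bq b (K * r + r)) (Nds c Z r (K * r)) :=
      dep_nds (by omega) fun b hb => Finset.subset_biUnion_of_mem (fun b => bq b (K * r + r)) hb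
    calc c1 * (1 / 2) * (c1 * (1 / 2)) ^ Z.card
        ≤ μ.real (nd c b r (K * r)) * μ.real (Nds c Z r (K * r)) := by
          gcongr
          exact hnd b
      _ ≤ _ := fkg_c (dep_nd (by omega)) hd (inc_nd _ _ _ _) (inc_nds _ _ _ _)

/-! ### gluing -/

/-- gluing at a node -/
theorem glue1 {c : Bool} {ω : Cfg} {b : (ℤ × ℤ)} {r R : ℤ} (hr : 0 ≤ r) (hR : 2 * r + 1 ≤ R)
    (H : ω ∈ NX c b (2 * r + 1) R) {u v u' v' : (ℤ × ℤ)}
    (hu : (u.1 + u.2) % 2 = pr c) (hv : (v.1 + v.2) % 2 = pr c) (h1 : nm (u - b) ≤ 2 * r)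
    (h2 : nm (v - b) ≤ 2 * r) (h3 : R ≤ nm (u' - b)) (h4 : R ≤ nm (v' - b)) {Rg Rg' : Set (ℤ × ℤ)}
    (k1 : PConn (cs c ω) Rg u u') (k2 : PConn (cs c ω) Rg' v v') :
    PConn (cs c ω) (bl b R) u v := by
  obtain ⟨z, a1, a2, -⟩ := first_exit k1 (b := b) (R := R) (by omega) h3
  obtain ⟨w, b1, b2, -⟩ := first_exit k2 (b := b) (R := R) (by omega) h4
  exact plane_glue (pr_or c) (by omega) hR H hu hv (a2.mono subset_rfl Set.inter_subset_right)
    (b2.mono subset_rfl Set.inter_subset_right) (by omega) (by omega) a1.ge b1.ge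

/-- `y` is the start of a long path -/
def Hub (c : Bool) (b : (ℤ × ℤ)) (r R : ℤ) (ω : Cfg) (y : (ℤ × ℤ)) : Prop :=
  (y.1 + y.2) % 2 = pr c ∧ nm (y - b) ≤ r ∧ ∃ y', nm (y' - b) = R + r ∧
    PConn (cs c ω) (bl b (R + r)) y y'

theorem exists_hub {c : Bool} {b : (ℤ × ℤ)} {r R : ℤ} {ω : Cfg} (h : ω ∈ nd c b r R) :
    ∃ y, Hub c b r R ω y := by
  obtain ⟨⟨y, y', h1, h2, h3, h4⟩, -⟩ := h
  exact ⟨y, h1, h2, y', h3, h4.mono subset_rfl Set.inter_subset_right⟩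

theorem nm_tri (u v w : (ℤ × ℤ)) : nm (u - w) ≤ nm (u - v) + nm (v - w) := by
  have h1 : nm (u - v) ≤ nm (u - v) := le_rfl
  have h2 : nm (v - w) ≤ nm (v - w) := le_rfl
  rw [nm_le] at h1 h2
  rw [nm_le]
  simp only [Prod.fst_sub, Prod.snd_sub] at *
  omega

theorem nm_comm (u v : (ℤ × ℤ)) : nm (u - v) = nm (v - u) := by
  simp only [nm, Prod.fst_sub, Prod.snd_sub]
  rw [abs_sub_comm, abs_sub_comm u.2]

/-- consecutive nodes are joined -/
theorem hub_step {c : Bool} {b b' : (ℤ × ℤ)} {r R : ℤ} {ω : Cfg} (hr : 0 ≤ r) (hR : 2 * r + 1 ≤ R)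
    (h : ω ∈ nd c b r R) {y y' : (ℤ × ℤ)} (hy : Hub c b r R ω y)
    (hy' : Hub c b' r R ω y') (hb : nm (b' - b) ≤ r) : PConn (cs c ω) (bl b R) y y' := by
  obtain ⟨p1, p2, y1, p3, p4⟩ := hy
  obtain ⟨q1, q2, y2, q3, q4⟩ := hy'
  refine glue1 hr hR h.2 p1 q1 (by omega) ?_ (by omega) ?_ p4 q4
  · have := nm_tri y' b' b; omega
  · have := nm_tri y2 b b'
    rw [nm_comm b b'] at this
    omega

/-- a site joined to a large distance is joined to the hub -/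
theorem hub_glue {c : Bool} {b : (ℤ × ℤ)} {r R : ℤ} {ω : Cfg} (hr : 0 ≤ r) (hR : 2 * r + 1 ≤ R)
    (h : ω ∈ nd c b r R) {y u u' : (ℤ × ℤ)} {Rg : Set (ℤ × ℤ)} (hy : Hub c b r R ω y)
    (hu : (u.1 + u.2) % 2 = pr c) (h1 : nm (u - b) ≤ 2 * r)
    (h3 : R ≤ nm (u' - b)) (k1 : PConn (cs c ω) Rg u u') : PConn (cs c ω) (bl b R) y u := by
  obtain ⟨p1, p2, y1, p3, p4⟩ := hy
  exact glue1 hr hR h.2 p1 hu (by omega) h1 (by omega) h3 p4 k1

/-- a chain of nodes -/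
theorem chain {c : Bool} {r R : ℤ} {ω : Cfg} (hr : 0 ≤ r) (hR : 2 * r + 1 ≤ R) {Rg : Set (ℤ × ℤ)}
    (z : ℕ → (ℤ × ℤ)) (n : ℕ) (hz : ∀ i < n, nm (z (i + 1) - z i) ≤ r)
    (h : ∀ i ≤ n, ω ∈ nd c (z i) r R) (hRg : ∀ i ≤ n, bl (z i) R ⊆ Rg) {y y' : (ℤ × ℤ)}
    (hy : Hub c (z 0) r R ω y) (hy' : Hub c (z n) r R ω y') : PConn (cs c ω) Rg y y' := by
  induction n generalizing y' with
  | zero =>
    refine (hub_step hr hR (h 0 le_rfl) hy hy' ?_).mono subset_rfl (hRg 0 le_rfl)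
    rw [sub_self]; simpa [nm] using hr
  | succ n ih =>
    obtain ⟨w, hw⟩ := exists_hub (h n (by omega))
    have h1 := ih (fun i hi => hz i (by omega)) (fun i hi => h i (by omega))
      (fun i hi => hRg i (by omega)) hw
    exact h1.trans ((hub_step hr hR (h n (by omega)) hw hy' (hz n (by omega))).mono subset_rfl
      (hRg n (by omega)))

/-! ### straight tubes -/

/-- the nodes of a vertical segment -/
noncomputable def vs (a : (ℤ × ℤ)) (r : ℤ) (n : ℕ) : Finset (ℤ × ℤ) :=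
  (Finset.range (n + 1)).image fun i : ℕ => (a.1, a.2 + i * r)

/-- the nodes of a horizontal segment -/
noncomputable def hs (a : (ℤ × ℤ)) (r : ℤ) (n : ℕ) : Finset (ℤ × ℤ) :=
  (Finset.range (n + 1)).image fun i : ℕ => (a.1 + i * r, a.2)

theorem card_vs (a : (ℤ × ℤ)) (r : ℤ) (n : ℕ) : (vs a r n).card ≤ n + 1 :=
  Finset.card_image_le.trans (Finset.card_range _).le

theorem card_hs (a : (ℤ × ℤ)) (r : ℤ) (n : ℕ) : (hs a r n).card ≤ n + 1 :=
  Finset.card_image_le.trans (Finset.card_range _).le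

theorem mem_vs {a : (ℤ × ℤ)} {r : ℤ} {n i : ℕ} (h : i ≤ n) : (a.1, a.2 + i * r) ∈ vs a r n :=
  Finset.mem_image_of_mem _ (Finset.mem_range.2 (by omega))

theorem mem_hs {a : (ℤ × ℤ)} {r : ℤ} {n i : ℕ} (h : i ≤ n) : (a.1 + i * r, a.2) ∈ hs a r n :=
  Finset.mem_image_of_mem _ (Finset.mem_range.2 (by omega))

theorem of_mem_vs {a a' b : (ℤ × ℤ)} {r : ℤ} {n : ℕ} (hr : 0 ≤ r) (ha : a'.2 = a.2 + n * r)
    (h : b ∈ vs a r n) : b.1 = a.1 ∧ a.2 ≤ b.2 ∧ b.2 ≤ a'.2 := by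
  obtain ⟨i, hi, rfl⟩ := Finset.mem_image.1 h
  have hi' : i ≤ n := by have := Finset.mem_range.1 hi; omega
  have h1 : (i : ℤ) ≤ n := by exact_mod_cast hi'
  have h2 : (0 : ℤ) ≤ i := by positivity
  refine ⟨rfl, ?_, ?_⟩ <;> dsimp only <;> nlinarith

theorem of_mem_hs {a a' b : (ℤ × ℤ)} {r : ℤ} {n : ℕ} (hr : 0 ≤ r) (ha : a'.1 = a.1 + n * r)
    (h : b ∈ hs a r n) : b.2 = a.2 ∧ a.1 ≤ b.1 ∧ b.1 ≤ a'.1 := by
  obtain ⟨i, hi, rfl⟩ := Finset.mem_image.1 h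
  have hi' : i ≤ n := by have := Finset.mem_range.1 hi; omega
  have h1 : (i : ℤ) ≤ n := by exact_mod_cast hi'
  have h2 : (0 : ℤ) ≤ i := by positivity
  refine ⟨rfl, ?_, ?_⟩ <;> dsimp only <;> nlinarith

/-- the nodes of a vertical tube are joined -/
theorem vtube {c : Bool} {r R : ℤ} {ω : Cfg} (hr : 0 ≤ r) (hR : 2 * r + 1 ≤ R) {a a' : (ℤ × ℤ)} {n : ℕ}
    (h : ω ∈ Nds c (vs a r n) r R) (h1 : a'.1 = a.1) (h2 : a'.2 = a.2 + n * r) {y y' : (ℤ × ℤ)}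
    (hy : Hub c a r R ω y) (hy' : Hub c a' r R ω y') :
    PConn (cs c ω) (Set.Icc (a.1 - R, a.2 - R) (a.1 + R, a'.2 + R)) y y' := by
  rw [h2]
  refine chain hr hR (fun i => (a.1, a.2 + i * r)) n ?_ ?_ ?_ (y := y) (y' := y') ?_ ?_
  · intro i _
    rw [nm_le]
    simp only [Prod.fst_sub, Prod.snd_sub]
    push_cast
    refine ⟨by omega, by omega, by nlinarith, by nlinarith⟩
  · intro i hi
    exact h _ (mem_vs hi)
  · intro i hi w hw
    have h1 : (i : ℤ) ≤ n := by exact_mod_cast hi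
    have h2 : (0 : ℤ) ≤ i := by positivity
    rw [mem_bl] at hw
    dsimp only at hw
    rw [Set.mem_Icc, Prod.le_def, Prod.le_def]
    dsimp only
    refine ⟨⟨by omega, by nlinarith⟩, by omega, by nlinarith⟩
  · simpa using hy
  · have e : ((a.1, a.2 + n * r) : (ℤ × ℤ)) = a' := Prod.ext h1.symm h2.symm
    rw [e]; exact hy'

/-- the nodes of a horizontal tube are joined -/
theorem htube {c : Bool} {r R : ℤ} {ω : Cfg} (hr : 0 ≤ r) (hR : 2 * r + 1 ≤ R) {a a' : (ℤ × ℤ)} {n : ℕ}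
    (h : ω ∈ Nds c (hs a r n) r R) (h1 : a'.2 = a.2) (h2 : a'.1 = a.1 + n * r) {y y' : (ℤ × ℤ)}
    (hy : Hub c a r R ω y) (hy' : Hub c a' r R ω y') :
    PConn (cs c ω) (Set.Icc (a.1 - R, a.2 - R) (a'.1 + R, a.2 + R)) y y' := by
  rw [h2]
  refine chain hr hR (fun i => (a.1 + i * r, a.2)) n ?_ ?_ ?_ (y := y) (y' := y') ?_ ?_
  · intro i _
    rw [nm_le]
    simp only [Prod.fst_sub, Prod.snd_sub]
    push_cast
    refine ⟨by nlinarith, by nlinarith, by omega, by omega⟩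
  · intro i hi
    exact h _ (mem_hs hi)
  · intro i hi w hw
    have h1 : (i : ℤ) ≤ n := by exact_mod_cast hi
    have h2 : (0 : ℤ) ≤ i := by positivity
    rw [mem_bl] at hw
    dsimp only at hw
    rw [Set.mem_Icc, Prod.le_def, Prod.le_def]
    dsimp only
    refine ⟨⟨by nlinarith, by omega⟩, by nlinarith, by omega⟩
  · simpa using hy
  · have e : ((a.1 + n * r, a.2) : (ℤ × ℤ)) = a' := Prod.ext h2.symm h1.symm
    rw [e]; exact hy'

end Vale.Agent.P167.H166N
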