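import Vale.Agent.P167.H318.Defs
import Vale.Agent.P167.H166N.Defs
import Vale.Agent.P167.H166N.Tube

/-!
# P167, block GP: the geometry of the gate

Unit `R = K r`, `M = 100 R`, `M ≤ l ≤ M + r`.
Open structure: column `x + 3 M` from below the side to height `7 M`, then west to `x - 3 M`, then
down to `4 M - 2 R`; between the heights `M + 3 R` and `M + 13 R` only the cluster of the box
around `A1` is known.  Dual structure: column `x - 2 M` to height `6 M`, east to `x + 2 M`, down to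
`4 M - 2 R`.
-/

namespace Vale.Agent.P167.H166N

open Vale.Agent.P145.FB Vale.Agent.P167 Vale.Agent.P167.H632 Vale.Agent.P167.H558
open Vale.Agent.P167.H871 (Dep Fair fair_mu)
open MeasureTheory Relation


/-- the numerical data -/
structure Dat (x l r R M : ℤ) (K : ℕ) : Prop where
  hr : 1 ≤ r
  hK : 3 ≤ K
  hR : R = K * r
  hM : M = 100 * R
  h1 : M ≤ l
  h2 : l ≤ M + r

theorem Dat.h3 {x l r R M : ℤ} {K : ℕ} (h : Dat x l r R M K) : 3 * r ≤ R := by
  have h1 : (3 : ℤ) ≤ K := by exact_mod_cast h.hK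
  rw [h.hR]
  have := h.hr
  nlinarith

/-! ### general lemmas on paths -/

theorem path_in {F : Set (ℤ × ℤ)} {D : Finset (ℤ × ℤ)} {Rg : Set (ℤ × ℤ)} {u v : (ℤ × ℤ)}
    (h : PConn (F ∩ ↑D) Set.univ u v) (hu : u ∈ Rg)
    (hD : ∀ x y : (ℤ × ℤ), PStep (↑D) x y → y ∈ Rg) : PConn F Rg u v := by
  obtain ⟨h0, h1⟩ := h
  induction h1 with
  | refl => exact PConn.refl hu
  | @tail x y hx hxy ih =>
    exact ih.tail ⟨hxy.1.1, hxy.1.2.1, hxy.1.2.2.1⟩ (hD x y ⟨hxy.1.1, hxy.1.2.1, hxy.1.2.2.2⟩)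

theorem foot {F Rg : Set (ℤ × ℤ)} {y y' : (ℤ × ℤ)} (h : PConn F Rg y y') (hy : 0 ≤ y.2) (hy' : y'.2 ≤ 0) :
    ∃ p : (ℤ × ℤ), p.2 = 0 ∧ PConn F (Rg ∩ {w | 0 ≤ w.2}) y p := by
  obtain ⟨p, h1, h2, -⟩ := pconn_cut_first (fun w => -w.2) (R := 0)
    (fun u v h => by have := h.2.1; omega) h (by omega) (by omega)
  refine ⟨p, by omega, h2.mono subset_rfl ?_⟩
  rintro w ⟨k1, k2⟩
  refine ⟨k1, ?_⟩
  simp only [Set.mem_ofPred_eq] at k2 ⊢
  omega

theorem hub_pos {c : Bool} {b y : (ℤ × ℤ)} {r R : ℤ} {ω : Cfg} (h : Hub c b r R ω y) :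
    b.1 - r ≤ y.1 ∧ y.1 ≤ b.1 + r ∧ b.2 - r ≤ y.2 ∧ y.2 ≤ b.2 + r := by
  have := h.2.1
  rw [nm_le] at this
  simp only [Prod.fst_sub, Prod.snd_sub] at this
  omega

/-- change of the region of a path in a rectangle -/
theorem rect_sub {F : Set (ℤ × ℤ)} {a b c d : ℤ} {Rg : Set (ℤ × ℤ)} {u v : (ℤ × ℤ)}
    (h : PConn F (Set.Icc (a, c) (b, d)) u v)
    (hs : ∀ w : (ℤ × ℤ), a ≤ w.1 → w.1 ≤ b → c ≤ w.2 → w.2 ≤ d → w ∈ Rg) : PConn F Rg u v := by
  refine h.mono subset_rfl ?_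
  intro w hw
  rw [Set.mem_Icc, Prod.le_def, Prod.le_def] at hw
  exact hs w hw.1.1 hw.2.1 hw.1.2 hw.2.2

theorem bl_sub {F : Set (ℤ × ℤ)} {b : (ℤ × ℤ)} {R : ℤ} {Rg : Set (ℤ × ℤ)} {u v : (ℤ × ℤ)}
    (h : PConn F (bl b R) u v)
    (hs : ∀ w : (ℤ × ℤ), b.1 - R ≤ w.1 → w.1 ≤ b.1 + R → b.2 - R ≤ w.2 → w.2 ≤ b.2 + R → w ∈ Rg) :
    PConn F Rg u v := by
  refine h.mono subset_rfl ?_
  intro w hw
  rw [mem_bl] at hw
  exact hs w hw.1 hw.2.1 hw.2.2.1 hw.2.2.2

/-! ### the sets -/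

/-- the nodes of the lower part of the open structure -/
noncomputable def Zl (x r R M : ℤ) (K : ℕ) : Finset (ℤ × ℤ) := vs (x + 3 * M, -R) r (104 * K)

/-- the middle part -/
noncomputable def Zm (x r R M : ℤ) (K : ℕ) : Finset (ℤ × ℤ) := vs (x + 3 * M, M + 3 * R) r (10 * K)

/-- the upper part -/
noncomputable def Zu (x r R M : ℤ) (K : ℕ) : Finset (ℤ × ℤ) :=
  vs (x + 3 * M, M + 13 * R) r (587 * K) ∪ (hs (x - 3 * M, 7 * M) r (600 * K) ∪
    vs (x - 3 * M, 4 * M - 2 * R) r (302 * K))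

/-- the nodes of the dual structure without the horizontal part -/
noncomputable def Zw (x r R M : ℤ) (K : ℕ) : Finset (ℤ × ℤ) :=
  (vs (x - 2 * M, -R) r (109 * K) ∪ vs (x - 2 * M, M + 8 * R) r (492 * K)) ∪
    (hs (x - 2 * M, 6 * M) r (400 * K) ∪ vs (x + 2 * M, 4 * M - 2 * R) r (202 * K))

/-- the horizontal part -/
noncomputable def Zh (x r R M : ℤ) (K : ℕ) : Finset (ℤ × ℤ) := hs (x - 2 * M, M + 8 * R) r (504 * K)

/-- the revealed deterministic squares -/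
noncomputable def UU (x R M : ℤ) : Finset (ℤ × ℤ) :=
  (Finset.Icc (x + 3 * M - 2 * R, -3 * R) (x + 3 * M + 2 * R, M + 5 * R) ∪
    Finset.Icc (x + 3 * M - 2 * R, M + 11 * R) (x + 3 * M + 2 * R, 7 * M + 2 * R)) ∪
  (Finset.Icc (x - 3 * M - 2 * R, 7 * M - 2 * R) (x + 3 * M + 2 * R, 7 * M + 2 * R) ∪
    Finset.Icc (x - 3 * M - 2 * R, 4 * M - 4 * R) (x - 3 * M + 2 * R, 7 * M + 2 * R))

/-- the squares in which the cluster is explored -/
noncomputable def DD (x R M : ℤ) : Finset (ℤ × ℤ) :=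
  Finset.Icc (x + 3 * M - 2 * R, M + R) (x + 3 * M + 2 * R - 1, M + 15 * R) ∪
    Finset.Icc (x - M, M + 6 * R) (x + 3 * M + 2 * R - 1, M + 10 * R - 1)

/-- the sources of the cluster -/
def BB (x r R M : ℤ) : Set (ℤ × ℤ) :=
  {b | (b.1 + b.2) % 2 = 0 ∧ nm (b - (x + 3 * M, M + 3 * R)) ≤ r}

/-- the revealed event -/
def EE (x r R M : ℤ) (K : ℕ) : Set Cfg :=
  {ω | ω ∈ Nds true (Zl x r R M K) r R ∧ ω ∈ Nds true (Zu x r R M K) r R ∧
    ∃ b' ∈ OC (DD x R M) (BB x r R M) ω, nm (b' - (x + 3 * M, M + 13 * R)) ≤ r}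

/-- the sites of the horizontal tube -/
def SS (x R M : ℤ) : Set (ℤ × ℤ) :=
  Set.Icc (x - 2 * M - R, M + 7 * R) (x + 3 * M + 5 * R, M + 9 * R)

/-! ### the gate -/

theorem mem_icc {a b c d : ℤ} {v : (ℤ × ℤ)} :
    v ∈ Finset.Icc ((a, c) : (ℤ × ℤ)) (b, d) ↔ (a ≤ v.1 ∧ c ≤ v.2) ∧ v.1 ≤ b ∧ v.2 ≤ d := by
  rw [Finset.mem_Icc, Prod.le_def, Prod.le_def]

theorem DD_corner {x l r R M : ℤ} {K : ℕ} (hd : Dat x l r R M K) {u v : (ℤ × ℤ)}
    (h : PStep (↑(DD x R M)) u v) :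
    x - M ≤ v.1 ∧ v.1 ≤ x + 3 * M + 2 * R ∧ M + R ≤ v.2 ∧ v.2 ≤ M + 15 * R + 1 := by
  obtain ⟨h1, h2, h3⟩ := h
  have hr := hd.hr
  have h4 := hd.h3
  have hM := hd.hM
  rw [Finset.mem_coe, DD, Finset.mem_union, mem_icc, mem_icc] at h3
  dsimp only at h3
  omega

/-- **the gate** -/
theorem gate_of {x l r R M : ℤ} {K : ℕ} (hd : Dat x l r R M K) {ω : Cfg}
    (hE : ω ∈ EE x r R M K) (hW : ω ∈ Nds false (Zw x r R M K) r R) {t0 t0' : (ℤ × ℤ)}
    (ht0 : (t0.1 + t0.2) % 2 = 1) (ht0n : nm (t0 - (x - 2 * M, M + 8 * R)) ≤ r)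
    (ht0' : nm (t0' - (x - 2 * M, M + 8 * R)) = R + r) (ht : PConn (cs false ω) Set.univ t0 t0')
    {e : Ed} (he : ls e ∈ OC (DD x R M) (BB x r R M) ω) (he2 : M + 6 * R ≤ (ls e).2)
    (hh : x - M - 1 ≤ (hdv e).1 ∧ (hdv e).1 ≤ x + 3 * M + 2 * R ∧ M + 6 * R - 1 ≤ (hdv e).2 ∧
      (hdv e).2 ≤ M + 10 * R)
    (hh' : x - M - 1 ≤ (tlv e).1 ∧ (tlv e).1 ≤ x + 3 * M + 2 * R ∧ M + 6 * R - 1 ≤ (tlv e).2 ∧
      (tlv e).2 ≤ M + 10 * R)
    (hH : PConn (op ω)ᶜ (SS x R M) t0 (rs e)) : H318.Gate x l ω e := by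
  have hr := hd.hr
  have h3 := hd.h3
  have hM := hd.hM
  have hR := hd.hR
  have hl1 := hd.h1
  have hl2 := hd.h2
  have hr0 : 0 ≤ r := by omega
  have hR1 : 2 * r + 1 ≤ R := by omega
  obtain ⟨hlow, hup, b', hb', hb'n⟩ := hE
  have hcol : ω ∈ Nds true (vs (x + 3 * M, M + 13 * R) r (587 * K)) r R :=
    Nds.mono Finset.subset_union_left hup
  have hup2 : ω ∈ Nds true (hs (x - 3 * M, 7 * M) r (600 * K) ∪
    vs (x - 3 * M, 4 * M - 2 * R) r (302 * K)) r R := Nds.mono Finset.subset_union_right hup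
  have htop : ω ∈ Nds true (hs (x - 3 * M, 7 * M) r (600 * K)) r R :=
    Nds.mono Finset.subset_union_left hup2
  have hdn : ω ∈ Nds true (vs (x - 3 * M, 4 * M - 2 * R) r (302 * K)) r R :=
    Nds.mono Finset.subset_union_right hup2
  -- the ends of the segments
  have e1 : M + 3 * R = -R + ((104 * K : ℕ) : ℤ) * r := by
    push_cast; rw [hM, mul_assoc, ← hR]; ring
  have e3 : 7 * M = M + 13 * R + ((587 * K : ℕ) : ℤ) * r := by
    push_cast; rw [hM, mul_assoc, ← hR]; ring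
  have e4 : x + 3 * M = x - 3 * M + ((600 * K : ℕ) : ℤ) * r := by
    push_cast; rw [hM, mul_assoc, ← hR]; ring
  have e5 : 7 * M = 4 * M - 2 * R + ((302 * K : ℕ) : ℤ) * r := by
    push_cast; rw [hM, mul_assoc, ← hR]; ring
  have f1 : M + 8 * R = -R + ((109 * K : ℕ) : ℤ) * r := by
    push_cast; rw [hM, mul_assoc, ← hR]; ring
  have f2 : 6 * M = M + 8 * R + ((492 * K : ℕ) : ℤ) * r := by
    push_cast; rw [hM, mul_assoc, ← hR]; ring
  have f3 : x + 2 * M = x - 2 * M + ((400 * K : ℕ) : ℤ) * r := by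
    push_cast; rw [hM, mul_assoc, ← hR]; ring
  have f4 : 6 * M = 4 * M - 2 * R + ((202 * K : ℕ) : ℤ) * r := by
    push_cast; rw [hM, mul_assoc, ← hR]; ring
  -- membership of the end nodes
  have n0 : ω ∈ nd true (x + 3 * M, -R) r R := by
    have := hlow _ (mem_vs (a := (x + 3 * M, -R)) (r := r) (n := 104 * K) (i := 0) (by omega))
    simpa using this
  have n1 : ω ∈ nd true (x + 3 * M, M + 3 * R) r R := by
    have := hlow _ (mem_vs (a := (x + 3 * M, -R)) (r := r) (n := 104 * K) (i := 104 * K) le_rfl)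
    rw [e1]; exact this
  have n2 : ω ∈ nd true (x + 3 * M, M + 13 * R) r R := by
    have := hcol _ (mem_vs (a := (x + 3 * M, M + 13 * R)) (r := r) (n := 587 * K) (i := 0)
      (by omega))
    simpa using this
  have n3 : ω ∈ nd true (x + 3 * M, 7 * M) r R := by
    have := hcol _ (mem_vs (a := (x + 3 * M, M + 13 * R)) (r := r) (n := 587 * K) (i := 587 * K)
      le_rfl)
    rw [e3]; exact this
  have n4 : ω ∈ nd true (x - 3 * M, 7 * M) r R := by
    have := htop _ (mem_hs (a := (x - 3 * M, 7 * M)) (r := r) (n := 600 * K) (i := 0) (by omega))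
    simpa using this
  have n5 : ω ∈ nd true (x - 3 * M, 4 * M - 2 * R) r R := by
    have := hdn _ (mem_vs (a := (x - 3 * M, 4 * M - 2 * R)) (r := r) (n := 302 * K) (i := 0)
      (by omega))
    simpa using this
  obtain ⟨y0, hy0⟩ := exists_hub n0
  obtain ⟨y1, hy1⟩ := exists_hub n1
  obtain ⟨y2, hy2⟩ := exists_hub n2
  obtain ⟨y3, hy3⟩ := exists_hub n3
  obtain ⟨y4, hy4⟩ := exists_hub n4
  obtain ⟨y5, hy5⟩ := exists_hub n5
  have q0 := hub_pos hy0
  have q1 := hub_pos hy1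
  have q2 := hub_pos hy2
  have q3 := hub_pos hy3
  have q4 := hub_pos hy4
  have q5 := hub_pos hy5
  dsimp only at q0 q1 q2 q3 q4 q5
  have c01 := vtube hr0 hR1 hlow (a' := (x + 3 * M, M + 3 * R)) rfl e1 hy0 hy1
  have c23 := vtube hr0 hR1 hcol (a' := (x + 3 * M, 7 * M)) rfl e3 hy2 hy3
  have c43 := htube hr0 hR1 htop (a' := (x + 3 * M, 7 * M)) rfl e4 hy4 hy3
  have c54 := vtube hr0 hR1 hdn (a' := (x - 3 * M, 7 * M)) rfl e5 hy5 hy4
  dsimp only at c01 c23 c43 c54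
  -- the cluster
  have key : ∀ v ∈ OC (DD x R M) (BB x r R M) ω, M + 4 * R ≤ v.2 →
      PConn (op ω) (H318.Bd x l) y1 v := by
    rintro v ⟨b, ⟨hb0, hbn⟩, hbv⟩ hv
    have g1 : PConn (cs true ω) (bl (x + 3 * M, M + 3 * R) R) y1 b := by
      refine hub_glue hr0 hR1 n1 hy1 hb0 (by omega) (u' := v) ?_ (hbv.mono Set.inter_subset_left
        subset_rfl)
      rw [le_nm]; simp only [Prod.fst_sub, Prod.snd_sub]; omega
    have g2 : PConn (op ω) (H318.Bd x l) y1 b := by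
      refine bl_sub g1 fun w w1 w2 w3 w4 => ?_
      dsimp only at w1 w2 w3 w4
      simp only [H318.Bd, Set.mem_ofPred_eq]
      omega
    refine g2.trans (path_in hbv g2.right_mem fun u w huw => ?_)
    have := DD_corner hd huw
    simp only [H318.Bd, Set.mem_ofPred_eq]
    omega
  have hb'2 : b'.2 ≥ M + 13 * R - r := by
    rw [nm_le] at hb'n
    simp only [Prod.fst_sub, Prod.snd_sub] at hb'n
    omega
  -- the connection of the middle
  have k1 : PConn (op ω) (H318.Bd x l) y1 b' := key b' hb' (by omega)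
  have k2 : PConn (cs true ω) (bl (x + 3 * M, M + 13 * R) R) y2 b' := by
    have hb'p : (b'.1 + b'.2) % 2 = pr true := by
      rw [← k1.parity]; exact hy1.1
    refine hub_glue hr0 hR1 n2 hy2 hb'p (by omega) (u' := y1) ?_ k1.symm
    rw [le_nm]; simp only [Prod.fst_sub, Prod.snd_sub]; omega
  have k3 : PConn (op ω) (H318.Bd x l) y2 y1 := by
    refine PConn.trans (bl_sub k2 fun w w1 w2 w3 w4 => ?_) k1.symm
    dsimp only at w1 w2 w3 w4
    simp only [H318.Bd, Set.mem_ofPred_eq]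
    omega
  -- Bd is contained in Bx
  have hBB : H318.Bd x l ⊆ H318.Bx x l := by
    intro w hw
    simp only [H318.Bd, H318.Bx, Set.mem_ofPred_eq] at hw ⊢
    omega
  refine ⟨by omega, by omega, ?_, ?_⟩
  · -- open paths
    obtain ⟨p, hp0, hp⟩ := foot c01.symm (by omega) (by omega)
    refine ⟨y2, p, y5, by omega, by omega, hp0, by omega, by omega,
      ((k3.trans (key _ he (by omega))).symm), (k3.mono subset_rfl hBB).trans ?_, ?_⟩
    · refine hp.mono subset_rfl ?_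
      rintro w ⟨hw, hw0⟩
      rw [Set.mem_Icc, Prod.le_def, Prod.le_def] at hw
      simp only [Set.mem_ofPred_eq] at hw0
      dsimp only at hw
      simp only [H318.Bx, Set.mem_ofPred_eq]
      omega
    · have s1 : PConn (op ω) (H318.Cs x l) y2 y3 := rect_sub c23 fun w w1 w2 w3 w4 => by
        simp only [H318.Cs, Set.mem_ofPred_eq]; omega
      have s2 : PConn (op ω) (H318.Cs x l) y4 y3 := rect_sub c43 fun w w1 w2 w3 w4 => by
        simp only [H318.Cs, Set.mem_ofPred_eq]; omega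
      have s3 : PConn (op ω) (H318.Cs x l) y5 y4 := rect_sub c54 fun w w1 w2 w3 w4 => by
        simp only [H318.Cs, Set.mem_ofPred_eq]; omega
      exact (s1.trans s2.symm).trans s3.symm
  · -- dual paths
    have hW1 : ω ∈ Nds false (vs (x - 2 * M, -R) r (109 * K)) r R :=
      Nds.mono (Finset.subset_union_left.trans Finset.subset_union_left) hW
    have hW2 : ω ∈ Nds false (vs (x - 2 * M, M + 8 * R) r (492 * K)) r R :=
      Nds.mono (Finset.subset_union_right.trans Finset.subset_union_left) hW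
    have hW3 : ω ∈ Nds false (hs (x - 2 * M, 6 * M) r (400 * K)) r R :=
      Nds.mono (Finset.subset_union_left.trans Finset.subset_union_right) hW
    have hW4 : ω ∈ Nds false (vs (x + 2 * M, 4 * M - 2 * R) r (202 * K)) r R :=
      Nds.mono (Finset.subset_union_right.trans Finset.subset_union_right) hW
    have m0 : ω ∈ nd false (x - 2 * M, -R) r R := by
      have := hW1 _ (mem_vs (a := (x - 2 * M, -R)) (r := r) (n := 109 * K) (i := 0) (by omega))
      simpa using this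
    have mJ : ω ∈ nd false (x - 2 * M, M + 8 * R) r R := by
      have := hW2 _ (mem_vs (a := (x - 2 * M, M + 8 * R)) (r := r) (n := 492 * K) (i := 0)
        (by omega))
      simpa using this
    have m2 : ω ∈ nd false (x - 2 * M, 6 * M) r R := by
      have := hW3 _ (mem_hs (a := (x - 2 * M, 6 * M)) (r := r) (n := 400 * K) (i := 0) (by omega))
      simpa using this
    have m3 : ω ∈ nd false (x + 2 * M, 6 * M) r R := by
      have := hW3 _ (mem_hs (a := (x - 2 * M, 6 * M)) (r := r) (n := 400 * K) (i := 400 * K)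
        le_rfl)
      rw [f3]; exact this
    have m4 : ω ∈ nd false (x + 2 * M, 4 * M - 2 * R) r R := by
      have := hW4 _ (mem_vs (a := (x + 2 * M, 4 * M - 2 * R)) (r := r) (n := 202 * K) (i := 0)
        (by omega))
      simpa using this
    obtain ⟨z0, hz0⟩ := exists_hub m0
    obtain ⟨zJ, hzJ⟩ := exists_hub mJ
    obtain ⟨z2, hz2⟩ := exists_hub m2
    obtain ⟨z3, hz3⟩ := exists_hub m3
    obtain ⟨z4, hz4⟩ := exists_hub m4
    have o0 := hub_pos hz0
    have oJ := hub_pos hzJ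
    have o2 := hub_pos hz2
    have o3 := hub_pos hz3
    have o4 := hub_pos hz4
    dsimp only at o0 oJ o2 o3 o4
    have d0J := vtube hr0 hR1 hW1 (a' := (x - 2 * M, M + 8 * R)) rfl f1 hz0 hzJ
    have dJ2 := vtube hr0 hR1 hW2 (a' := (x - 2 * M, 6 * M)) rfl f2 hzJ hz2
    have d23 := htube hr0 hR1 hW3 (a' := (x + 2 * M, 6 * M)) rfl f3 hz2 hz3
    have d43 := vtube hr0 hR1 hW4 (a' := (x + 2 * M, 6 * M)) rfl f4 hz4 hz3
    dsimp only at d0J dJ2 d23 d43
    have dt : PConn (cs false ω) (bl (x - 2 * M, M + 8 * R) R) zJ t0 :=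
      hub_glue hr0 hR1 mJ hzJ (by simpa [pr] using ht0) (by omega) (u' := t0') (by omega) ht
    have ht0p : x - 2 * M - r ≤ t0.1 ∧ t0.1 ≤ x - 2 * M + r ∧ M + 8 * R - r ≤ t0.2 ∧
        t0.2 ≤ M + 8 * R + r := by
      rw [nm_le] at ht0n
      simp only [Prod.fst_sub, Prod.snd_sub] at ht0n
      omega
    rw [cs_false] at d0J dJ2 d23 d43 dt
    obtain ⟨p, hp0, hp⟩ := foot d0J.symm (by omega) (by omega)
    refine ⟨t0, p, z4, by omega, by omega, hp0, by omega, by omega, ?_, ?_, ?_⟩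
    · refine (rect_sub hH fun w w1 w2 w3 w4 => ?_).symm
      simp only [H318.Bd, Set.mem_ofPred_eq]
      omega
    · have s0 : PConn (op ω)ᶜ (H318.Bx x l) t0 zJ := by
        refine (bl_sub dt fun w w1 w2 w3 w4 => ?_).symm
        dsimp only at w1 w2 w3 w4
        simp only [H318.Bx, Set.mem_ofPred_eq]
        omega
      refine s0.trans (hp.mono subset_rfl ?_)
      rintro w ⟨hw, hw0⟩
      rw [Set.mem_Icc, Prod.le_def, Prod.le_def] at hw
      simp only [Set.mem_ofPred_eq] at hw0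
      dsimp only at hw
      simp only [H318.Bx, Set.mem_ofPred_eq]
      omega
    · have s0 : PConn (op ω)ᶜ (H318.Cs x l) t0 zJ := by
        refine (bl_sub dt fun w w1 w2 w3 w4 => ?_).symm
        dsimp only at w1 w2 w3 w4
        simp only [H318.Cs, Set.mem_ofPred_eq]
        omega
      have s1 : PConn (op ω)ᶜ (H318.Cs x l) zJ z2 := rect_sub dJ2 fun w w1 w2 w3 w4 => by
        simp only [H318.Cs, Set.mem_ofPred_eq]; omega
      have s2 : PConn (op ω)ᶜ (H318.Cs x l) z2 z3 := rect_sub d23 fun w w1 w2 w3 w4 => by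
        simp only [H318.Cs, Set.mem_ofPred_eq]; omega
      have s3 : PConn (op ω)ᶜ (H318.Cs x l) z4 z3 := rect_sub d43 fun w w1 w2 w3 w4 => by
        simp only [H318.Cs, Set.mem_ofPred_eq]; omega
      exact ((s0.trans s1).trans s2).trans s3.symm

end Vale.Agent.P167.H166N
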