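import Vale.Agent.P167.H166N.Tube
import Vale.Agent.P167.H166N.V4Defs

/-!
# P167, block VOUT, V4: gluing in the half planes of the four directions
-/

namespace Vale.Agent.P167.H166N

open Vale.Agent.P145.FB Vale.Agent.P167 Vale.Agent.P167.H632
open Vale.Agent.P167.H871 (Dep Fair fair_mu)
open MeasureTheory Relation

/-- a folding of the sites (`f`) and of the squares (`g`) onto the half plane `H` -/
structure Fold (b : ℤ × ℤ) (H : Set (ℤ × ℤ)) (f g : ℤ × ℤ → ℤ × ℤ) : Prop where
  mem : ∀ w, f w ∈ H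
  fix : ∀ w ∈ H, f w = w
  nrm : ∀ w, nm (f w - b) = nm (w - b)
  par : ∀ w, ((f w).1 + (f w).2) % 2 = (w.1 + w.2) % 2
  step : ∀ (u v : ℤ × ℤ), (v.1 = u.1 + 1 ∨ v.1 = u.1 - 1) → (v.2 = u.2 + 1 ∨ v.2 = u.2 - 1) →
    ((f v).1 = (f u).1 + 1 ∨ (f v).1 = (f u).1 - 1) ∧
    ((f v).2 = (f u).2 + 1 ∨ (f v).2 = (f u).2 - 1) ∧
    (min (f u).1 (f v).1, min (f u).2 (f v).2) = g (min u.1 v.1, min u.2 v.2)

variable {b : ℤ × ℤ} {H : Set (ℤ × ℤ)} {f g : ℤ × ℤ → ℤ × ℤ}

theorem Fold.path (h : Fold b H f g) {F Rg : Set (ℤ × ℤ)} {u v : ℤ × ℤ}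
    (hR : ∀ w ∈ Rg, f w ∈ Rg) (k : PConn (g ⁻¹' F) Rg u v) : PConn F (H ∩ Rg) (f u) (f v) := by
  obtain ⟨h0, h1⟩ := k
  induction h1 with
  | refl => exact PConn.refl ⟨h.mem _, hR _ h0⟩
  | @tail x y _ hxy ih =>
    obtain ⟨a1, a2, a3⟩ := h.step x y hxy.1.1 hxy.1.2.1
    refine ih.tail ⟨a1, a2, ?_⟩ ⟨h.mem _, hR _ hxy.2⟩
    rw [a3]; exact hxy.1.2.2

theorem Fold.unpath (h : Fold b H f g) {F Rg : Set (ℤ × ℤ)} {u v : ℤ × ℤ}
    (k : PConn F (H ∩ Rg) u v) : PConn (g ⁻¹' F) Rg u v := by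
  obtain ⟨h0, h1⟩ := k
  induction h1 with
  | refl => exact PConn.refl h0.2
  | @tail x y hx hxy ih =>
    have hxm := (show PConn F (H ∩ Rg) u x from ⟨h0, hx⟩).right_mem
    obtain ⟨-, -, a3⟩ := h.step x y hxy.1.1 hxy.1.2.1
    refine ih.tail ⟨hxy.1.1, hxy.1.2.1, ?_⟩ hxy.2.2
    rw [Set.mem_preimage, ← a3, h.fix _ hxm.1, h.fix _ hxy.2.1]
    exact hxy.1.2.2

/-- **Gluing in the half plane `H`.** -/
theorem Fold.glue (h : Fold b H f g) {F : Set (ℤ × ℤ)} {r R e : ℤ} (he : e = 0 ∨ e = 1)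
    (hr : 1 ≤ r) (hrR : r ≤ R) (hN : NoX F Set.univ e b r R) {u v u' v' : ℤ × ℤ}
    (hu : (u.1 + u.2) % 2 = e) (hu' : (u'.1 + u'.2) % 2 = e) (k : PConn F (H ∩ bl b R) u v)
    (k' : PConn F (H ∩ bl b R) u' v') (h1 : nm (u - b) < r) (h1' : nm (u' - b) < r)
    (h2 : R ≤ nm (v - b)) (h2' : R ≤ nm (v' - b)) : PConn F (H ∩ bl b R) u u' := by
  have hN' : NoX (g ⁻¹' F) Set.univ e b r R := by
    intro y y' hy hy1 hy2 hc
    rw [← Set.preimage_compl] at hc
    have hc' := h.path (F := Fᶜ) (Rg := Set.univ ∩ an b r R) (fun w hw => ⟨trivial, by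
      have := hw.2
      simp only [an, Set.mem_ofPred_eq] at this ⊢
      rw [h.nrm]; exact this⟩) hc
    exact hN (f y) (f y') (by rw [h.par]; exact hy) (by rw [h.nrm]; exact hy1)
      (by rw [h.nrm]; exact hy2) (hc'.mono subset_rfl Set.inter_subset_right)
  have key := plane_glue he hr hrR hN' hu hu' (h.unpath k) (h.unpath k') h1 h1' h2 h2'
  have := h.path (fun w hw => by
    have hw' : nm (w - b) ≤ R := hw
    show nm (f w - b) ≤ R
    rw [h.nrm]; exact hw') key
  rwa [h.fix _ k.left_mem.1, h.fix _ k'.left_mem.1] at this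

/-! ### the four directions -/

theorem fold_up (b : ℤ × ℤ) : Fold b {w | b.2 ≤ w.2} (fun w => (w.1, b.2 + |w.2 - b.2|))
    (fun v => if b.2 ≤ v.2 then v else (v.1, 2 * b.2 - 1 - v.2)) where
  mem w := by
    have := abs_nonneg (w.2 - b.2)
    simp only [Set.mem_ofPred_eq]; omega
  fix w hw := by
    simp only [Set.mem_ofPred_eq] at hw
    refine Prod.ext rfl ?_
    dsimp only
    rw [abs_of_nonneg (by omega)]; ring
  nrm w := by
    simp only [nm, Prod.fst_sub, Prod.snd_sub, add_sub_cancel_left, abs_abs]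
  par w := by
    dsimp only
    rcases abs_choice (w.2 - b.2) with h | h <;> rw [h] <;> omega
  step u v h1 h2 := by
    dsimp only
    refine ⟨h1, ?_, ?_⟩
    · rcases abs_cases (u.2 - b.2) with h | h <;> rcases abs_cases (v.2 - b.2) with h' | h' <;>
        omega
    · split_ifs with hc
      · refine Prod.ext rfl ?_
        dsimp only
        rcases abs_cases (u.2 - b.2) with h | h <;> rcases abs_cases (v.2 - b.2) with h' | h' <;>
          omega
      · refine Prod.ext rfl ?_
        dsimp only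
        rcases abs_cases (u.2 - b.2) with h | h <;> rcases abs_cases (v.2 - b.2) with h' | h' <;>
          omega

theorem fold_dn (b : ℤ × ℤ) : Fold b {w | w.2 ≤ b.2} (fun w => (w.1, b.2 - |w.2 - b.2|))
    (fun v => if v.2 < b.2 then v else (v.1, 2 * b.2 - 1 - v.2)) where
  mem w := by
    have := abs_nonneg (w.2 - b.2)
    simp only [Set.mem_ofPred_eq]; omega
  fix w hw := by
    simp only [Set.mem_ofPred_eq] at hw
    refine Prod.ext rfl ?_
    dsimp only
    rw [abs_of_nonpos (by omega)]; ring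
  nrm w := by
    simp only [nm, Prod.fst_sub, Prod.snd_sub, sub_sub_cancel_left, abs_neg, abs_abs]
  par w := by
    dsimp only
    rcases abs_choice (w.2 - b.2) with h | h <;> rw [h] <;> omega
  step u v h1 h2 := by
    dsimp only
    refine ⟨h1, ?_, ?_⟩
    · rcases abs_cases (u.2 - b.2) with h | h <;> rcases abs_cases (v.2 - b.2) with h' | h' <;>
        omega
    · split_ifs with hc
      · refine Prod.ext rfl ?_
        dsimp only
        rcases abs_cases (u.2 - b.2) with h | h <;> rcases abs_cases (v.2 - b.2) with h' | h' <;>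
          omega
      · refine Prod.ext rfl ?_
        dsimp only
        rcases abs_cases (u.2 - b.2) with h | h <;> rcases abs_cases (v.2 - b.2) with h' | h' <;>
          omega

theorem fold_rt (b : ℤ × ℤ) : Fold b {w | b.1 ≤ w.1} (fun w => (b.1 + |w.1 - b.1|, w.2))
    (fun v => if b.1 ≤ v.1 then v else (2 * b.1 - 1 - v.1, v.2)) where
  mem w := by
    have := abs_nonneg (w.1 - b.1)
    simp only [Set.mem_ofPred_eq]; omega
  fix w hw := by
    simp only [Set.mem_ofPred_eq] at hw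
    refine Prod.ext ?_ rfl
    dsimp only
    rw [abs_of_nonneg (by omega)]; ring
  nrm w := by
    simp only [nm, Prod.fst_sub, Prod.snd_sub, add_sub_cancel_left, abs_abs]
  par w := by
    dsimp only
    rcases abs_choice (w.1 - b.1) with h | h <;> rw [h] <;> omega
  step u v h1 h2 := by
    dsimp only
    refine ⟨?_, h2, ?_⟩
    · rcases abs_cases (u.1 - b.1) with h | h <;> rcases abs_cases (v.1 - b.1) with h' | h' <;>
        omega
    · split_ifs with hc
      · refine Prod.ext ?_ rfl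
        dsimp only
        rcases abs_cases (u.1 - b.1) with h | h <;> rcases abs_cases (v.1 - b.1) with h' | h' <;>
          omega
      · refine Prod.ext ?_ rfl
        dsimp only
        rcases abs_cases (u.1 - b.1) with h | h <;> rcases abs_cases (v.1 - b.1) with h' | h' <;>
          omega

theorem fold_lf (b : ℤ × ℤ) : Fold b {w | w.1 ≤ b.1} (fun w => (b.1 - |w.1 - b.1|, w.2))
    (fun v => if v.1 < b.1 then v else (2 * b.1 - 1 - v.1, v.2)) where
  mem w := by
    have := abs_nonneg (w.1 - b.1)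
    simp only [Set.mem_ofPred_eq]; omega
  fix w hw := by
    simp only [Set.mem_ofPred_eq] at hw
    refine Prod.ext ?_ rfl
    dsimp only
    rw [abs_of_nonpos (by omega)]; ring
  nrm w := by
    simp only [nm, Prod.fst_sub, Prod.snd_sub, sub_sub_cancel_left, abs_neg, abs_abs]
  par w := by
    dsimp only
    rcases abs_choice (w.1 - b.1) with h | h <;> rw [h] <;> omega
  step u v h1 h2 := by
    dsimp only
    refine ⟨?_, h2, ?_⟩
    · rcases abs_cases (u.1 - b.1) with h | h <;> rcases abs_cases (v.1 - b.1) with h' | h' <;>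
        omega
    · split_ifs with hc
      · refine Prod.ext ?_ rfl
        dsimp only
        rcases abs_cases (u.1 - b.1) with h | h <;> rcases abs_cases (v.1 - b.1) with h' | h' <;>
          omega
      · refine Prod.ext ?_ rfl
        dsimp only
        rcases abs_cases (u.1 - b.1) with h | h <;> rcases abs_cases (v.1 - b.1) with h' | h' <;>
          omega

theorem exists_fold (r : Fin 4) (b : ℤ × ℤ) : ∃ f g, Fold b (Hs r b) f g := by
  fin_cases r
  · exact ⟨_, _, fold_dn b⟩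
  · exact ⟨_, _, fold_rt b⟩
  · exact ⟨_, _, fold_up b⟩
  · exact ⟨_, _, fold_lf b⟩

end Vale.Agent.P167.H166N
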