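import Vale.Agent.P167.H166N.V4
import Vale.Agent.P167.XDL.Vout3
import Vale.Agent.P167.H436.T1F
import Vale.Agent.P167.H199.Geox

/-!
# P167, block VOUT: the lower bound of the exterior event and `VOUT`
-/

namespace Vale.Agent.P167.H166N

/-- **V4** -/
theorem v4_ok : V4 := v4 H436.t1f H199.geox

/-- **VOUT** -/
theorem vout : H662.VOUT := XDL.vout_of_v4 v4_ok

end Vale.Agent.P167.H166N
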